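import Vale.Agent.P313.R2.H284.SavL

/-!
The stack machine for reachability is computed in the class `LF` of functions of the input.
-/

namespace Vale.Agent.P313.H947

open Finset SV

variable {k : ℕ}

theorem lf_cf {P m i v S : Fn k} (hP : LF P) (hm : LF m) (hi : LF i) (hv : LF v) (hS : LF S) :
    LF (fun x a => RecD.cf (P x a) (m x a) (i x a) (v x a) (S x a)) := by
  unfold RecD.cf
  exact hm.add (hP.mul (hi.add (hP.mul (hv.add (hP.mul hS)))))

theorem lf_fr {P m i v S : Fn k} (hP : LF P) (hm : LF m) (hi : LF i) (hv : LF v) (hS : LF S) :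
    LF (fun x a => RecD.fr (P x a) (m x a) (i x a) (v x a) (S x a)) := by
  unfold RecD.fr
  exact hm.add (hP.mul (hi.add (hP.mul (hv.add (hP.mul hS)))))

theorem lf_sav_stp {E : List Bool → (Fin k → ℕ) → ℕ → ℕ → ℕ}
    (lE : ∀ {v u : Fn k}, LF v → LF u → LF (fun x a => E x a (v x a) (u x a)))
    {N P top c : Fn k} (hN : LF N) (hP : LF P) (ht : LF top) (hc : LF c) :
    LF (fun x a => (sav (N x a) (E x a)).stp (P x a) (2 * N x a) (top x a) (c x a)) := by
  have h0 := hc.mod hP
  have h1 := (hc.div hP).mod hP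
  have h2 := ((hc.div hP).div hP).mod hP
  have h3 := ((hc.div hP).div hP).div hP
  have h4 := h3.mod hP
  have h5 := (h3.div hP).mod hP
  have h6 := ((h3.div hP).div hP).mod hP
  have h7 := ((h3.div hP).div hP).div hP
  have lq : ∀ {a q : Fn k} (i s : Fn k), LF a → LF q →
      LF (fun x w => (sav (N x w) (E x w)).qry (i x w) (a x w) (q x w) (s x w)) :=
    fun i s ha hq => LF.ite (LFP.eq (hq.mod (LF.const 2)) LF.zero)
      ((ha.mod hN).add (hN.mul (hq.div (LF.const 2))))
      ((hq.div (LF.const 2)).add (hN.mul (ha.div hN)))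
  have lu : ∀ {q s r : Fn k} (i a : Fn k), LF q → LF s → LF r →
      LF (fun x w => (sav (N x w) (E x w)).upd (i x w) (a x w) (q x w) (s x w) (r x w)) :=
    fun i a hq hs hr => LF.ite (LFP.eq hs (LF.const 2)) (LF.const 2)
      (LF.ite (LFP.eq (hq.mod (LF.const 2)) LF.zero)
        (LF.ite (LFP.eq hr LF.zero) LF.zero (LF.const 1))
        (LF.ite (LFP.eq hs (LF.const 1)) (LF.ite (LFP.eq hr LF.zero) LF.zero (LF.const 2))
          LF.zero))
  have lo : ∀ {s : Fn k} (i a : Fn k), LF s →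
      LF (fun x w => (sav (N x w) (E x w)).out (i x w) (a x w) (s x w)) :=
    fun i a hs => LF.ite (LFP.eq hs (LF.const 2)) (LF.const 1) LF.zero
  have lb : ∀ {a : Fn k}, LF a → LF (fun x w => (sav (N x w) (E x w)).base (a x w)) :=
    fun ha => lE (ha.mod hN) (ha.div hN)
  unfold RecD.stp
  exact LF.ite (LFP.eq h0 LF.zero)
    (LF.ite (LFP.eq h1 LF.zero) (lf_cf hP (LF.const 1) LF.zero (lb h2) h3)
      (lf_cf hP LF.zero (h1.sub (LF.const 1)) (lq _ _ h2 LF.zero)
        (lf_fr hP h2 LF.zero LF.zero h3)))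
    (LF.ite (LFP.eq h1 ht) hc
      (LF.ite (LFP.lt h5.succ ((LF.const 2).mul hN))
        (lf_cf hP LF.zero h1 (lq _ _ h4 h5.succ)
          (lf_fr hP h4 h5.succ (lu _ _ h5 h6 h2) h7))
        (lf_cf hP (LF.const 1) h1.succ (lo _ _ (lu _ _ h5 h6 h2)) h7)))

theorem lf_savC {E : List Bool → (Fin k → ℕ) → ℕ → ℕ → ℕ}
    (lE : ∀ {v u : Fn (k + 1)}, LF v → LF u →
      LF (fun x z => E x (Fin.tail z) (v x z) (u x z)))
    {N P M top a : Fn k} (hN : LF N) (hP : LF P) (hM : LF M) (ht : LF top) (ha : LF a) :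
    LF (fun x w => savC (N x w) (E x w) (P x w) (M x w) (top x w) (a x w)) := by
  have hc0 : LF (fun x w => RecD.cf (P x w) 0 (top x w) (a x w) 0) :=
    lf_cf hP LF.zero ht ha LF.zero
  have h1 := LF.iterate (k := k)
    (f := fun x z => (sav (N x (Fin.tail z)) (E x (Fin.tail z))).stM (P x (Fin.tail z))
      (2 * N x (Fin.tail z)) (top x (Fin.tail z)) (M x (Fin.tail z)) (z 0))
    (g := fun x w => RecD.cf (P x w) 0 (top x w) (a x w) 0) (n := M)
    (by
      unfold RecD.stM
      exact (lf_sav_stp (E := fun x z => E x (Fin.tail z)) lE hN.weak hP.weak ht.weak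
        (LF.proj 0)).mod hM.weak.succ) hc0 hM
    (fun x w => RecD.cf (P x w) 0 (top x w) (a x w) 0 + M x w) (hc0.pb.add hM.pb)
    (fun x w i _ => by
      simp only [Fin.tail_cons, Fin.cons_zero]
      exact TS.XR.stM_iter_le _ _ _ _ _ _ i)
  refine (((h1.div hP).div hP).mod hP).congr (fun x w => ?_)
  simp only [Fin.tail_cons, Fin.cons_zero]
  rfl

end Vale.Agent.P313.H947
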