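import Vale.Agent.P313.H427L.AssembleP
import Vale.Agent.P313.H947.LfSav

/-!
Assembly: reachability along the entries above a threshold, for most seeds.
-/

namespace Vale.Agent.P313.H947

open Finset SV CT

theorem rch_congr {N : ℕ} {E E' : ℕ → ℕ → Prop} (h : ∀ v < N, ∀ u < N, (E v u ↔ E' v u)) :
    ∀ i, ∀ v < N, ∀ u < N, (rch N E i v u ↔ rch N E' i v u) := by
  intro i
  induction i with
  | zero => intro v hv u hu; exact h v hv u hu
  | succ i ih =>
    intro v hv u hu
    constructor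
    · rintro ⟨w, hw, h1, h2⟩
      exact ⟨w, hw, (ih v hv w hw).1 h1, (ih w hw u hu).1 h2⟩
    · rintro ⟨w, hw, h1, h2⟩
      exact ⟨w, hw, (ih v hv w hw).2 h1, (ih w hw u hu).2 h2⟩

/-- The indicator of the edges. -/
noncomputable def edG (thr : ℕ) (g : ℕ → ℕ → ℕ) (v u : ℕ) : ℕ := if v = u then 1 else ind (thr < g v u)

theorem edG_le (thr : ℕ) (g : ℕ → ℕ → ℕ) (v u : ℕ) : edG thr g v u ≤ 1 := by
  unfold edG
  split_ifs
  · exact le_rfl
  · by_cases h : thr < g v u
    · rw [ind_true h]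
    · rw [ind_false h]; omega

theorem edG_ne {thr : ℕ} {g : ℕ → ℕ → ℕ} {v u : ℕ} :
    edG thr g v u ≠ 0 ↔ v = u ∨ thr < g v u := by
  unfold edG
  split_ifs with h
  · simp [h]
  · rw [ind_ne_zero]
    simp [h]

open Classical in
/-- ASSEMBLY WITH REACHABILITY. -/
theorem assembleS {p : CP} (hp : p.Ok)
    {B w L top thr NS N0 s0 κ : List Bool → ℕ} {st : List Bool → ℕ → ℕ → ℕ} {qy : ℕ → ℕ → ℕ}
    (hB : P313.LF (fun x _ => B x : P313.Fn 0)) (hw : P313.LF (fun x _ => w x : P313.Fn 0))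
    (hL : P313.LF (fun x _ => L x : P313.Fn 0)) (htop : P313.LF (fun x _ => top x : P313.Fn 0))
    (hthr : P313.LF (fun x _ => thr x : P313.Fn 0)) (hN0 : P313.LF (fun x _ => N0 x : P313.Fn 0))
    (hs0 : P313.LF (fun x _ => s0 x : P313.Fn 0)) (hκ : P313.LF (fun x _ => κ x : P313.Fn 0))
    (hst : P313.LF (fun x a => st x (a 0) (a 1) : P313.Fn 2))
    (hqy : P313.LF (fun _ a => qy (a 0) (a 1) : P313.Fn 4))
    (hNS : P313.LF (fun x a => min (NS x) (a 0 + 1) : P313.Fn 1))
    (h1w : ∀ x, 1 ≤ w x) (htopB : ∀ x, top x ≤ B x) (hκB : ∀ x, κ x ≤ B x)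
    (hN0B : ∀ x, N0 x ≤ B x) (hs0N : ∀ x, s0 x < N0 x)
    (hqyB : ∀ x, ∀ v < N0 x, ∀ u < N0 x, qy v u ≤ B x)
    {S : ℕ → ℝ} (hS0 : ∀ n, 0 ≤ S n) {c1 : ℕ}
    (hS1 : ∀ x, (Nat.log 2 (NS x) : ℝ) ≤ c1 * S x.length + c1)
    (hS2 : ∀ x, ((L x * (Nat.log 2 (w x) + 1) : ℕ) : ℝ) ≤ c1 * S x.length + c1)
    (hS3 : ∀ x, (((top x + 1) * (Nat.log 2 (x.length + B x + 2) + 1) : ℕ) : ℝ) ≤
      c1 * S x.length + c1)
    (hS4 : ∀ x, (((κ x + 1) * (Nat.log 2 (x.length + B x + 2) + 1) : ℕ) : ℝ) ≤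
      c1 * S x.length + c1) :
    ∃ (A : Set (List Bool)) (D : RTM) (c : ℕ), D.Decides A (fun n => (2 : ℝ) ^ (c * S n + c))
      (fun n => c * S n + c) ∧ ∀ (x : List Bool) (b : Prop),
      NS x < 2 * #{s ∈ range (NS x) | Restores (envS B w L st x s) p (top x) ∧
        (rch (N0 x) (fun v u => v = u ∨
          thr x < val (envS B w L st x s) p (top x) (qy v u) (fun _ => 0)) (κ x) (s0 x) 0 ↔ b)} →
      (x ∈ A ↔ b) := by
  obtain ⟨c, heng⟩ := engine p hp
  let e : EnvC 4 := ⟨fun x _ => B x, fun x _ => w x, fun x _ => L x, fun x b => st x (b 0) (b 3)⟩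
  have he : e.Ok := by
    refine ⟨hB.weak.weak.weak.weak, hw.weak.weak.weak.weak, hL.weak.weak.weak.weak, ?_⟩
    have h2 := LF.comp (k := 5) (m := 2) (f := fun x a => st x (a 0) (a 1))
      (g := ![fun _ b => b 0, fun _ b => b 3]) hst (fun i => by
        refine Fin.cases ?_ (fun j => ?_) i
        · exact LF.proj (k := 5) 0
        · refine Fin.cases ?_ (fun j => ?_) j
          · exact LF.proj (k := 5) 3
          · exact j.elim0)
    exact h2
  obtain ⟨G, hG, -, hval⟩ := heng 4 e (fun x _ => top x) (fun _ a => qy (a 0) (a 1))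
    (fun _ a => a 3) he htop.weak.weak.weak.weak hqy (LF.proj 3)
  let E : List Bool → (Fin 2 → ℕ) → ℕ → ℕ → ℕ :=
    fun x b => edG (thr x) (fun v u => G x ![v, u, b 0, b 1])
  have lE : ∀ {v u : P313.Fn 3}, P313.LF v → P313.LF u →
      P313.LF (fun x z => E x (Fin.tail z) (v x z) (u x z)) := by
    intro v u hv hu
    have h2 := LF.comp (k := 3) (m := 4) (f := G)
      (g := ![v, u, fun _ z => z 1, fun _ z => z 2]) hG (fun i => by
        fin_cases i
        · exact hv
        · exact hu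
        · exact LF.proj (k := 3) 1
        · exact LF.proj (k := 3) 2)
    have h3 : P313.LF (fun x z => G x ![v x z, u x z, z 1, z 2] : P313.Fn 3) := by
      refine h2.congr (fun x z => ?_)
      congr 1
      funext i
      fin_cases i <;> rfl
    exact LF.ite (LFP.eq hv hu) (LF.const 1) (LFP.lt hthr.weak.weak.weak h3)
  let R : List Bool → ℕ := fun x => x.length + B x + 2
  have hR0 : P313.LF (fun x _ => R x : P313.Fn 0) := (LF.len.add hB).add (LF.const 2)
  have lS : P313.LF (fun x b => savC (N0 x) (E x b) (R x ^ 2) (b 1) (κ x) (s0 x) : P313.Fn 2) :=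
    lf_savC lE hN0.weak.weak (hR0.weak.weak.powConst 2) (LF.proj 1) hκ.weak.weak hs0.weak.weak
  let F : P313.Fn 1 := fun x a => ind (min (NS x) (a 0 + 1) <
    2 * ∑ s ∈ range (min (NS x) (a 0 + 1)),
      ind (0 < savC (N0 x) (E x (Fin.cons s a)) (R x ^ 2) (a 0) (κ x) (s0 x)))
  have hsum : P313.LF (fun x a => ∑ s ∈ range (min (NS x) (a 0 + 1)),
      ind (0 < savC (N0 x) (E x (Fin.cons s a)) (R x ^ 2) (a 0) (κ x) (s0 x)) : P313.Fn 1) :=
    LF.sum (k := 1)
      (f := fun x b => ind (0 < savC (N0 x) (E x b) (R x ^ 2) (b 1) (κ x) (s0 x)))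
      (LFP.lt LF.zero lS) hNS
  have hF : P313.LF F := LFP.lt hNS ((LF.const 2).mul hsum)
  have hR1 : P313.LF (fun x _ => R x : P313.Fn 1) := hR0.weak
  have hw1 : P313.LF (fun x _ => w x : P313.Fn 1) := hw.weak
  have hL1 : P313.LF (fun x _ => L x : P313.Fn 1) := hL.weak
  have htop1 : P313.LF (fun x _ => top x : P313.Fn 1) := htop.weak
  have hκ1 : P313.LF (fun x _ => κ x : P313.Fn 1) := hκ.weak
  let X : List Bool → ℕ := fun x => c * (top x + 1) + 6 * (κ x + 1)
  have hX1 : P313.LF (fun x _ => X x : P313.Fn 1) :=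
    ((LF.const c).mul htop1.succ).add ((LF.const 6).mul hκ1.succ)
  let g : P313.Fn 1 := fun x a => ind (min (NS x) (a 0 + 1) ≤ a 0 ∧
    min (w x ^ L x) (a 0 + 1) * min (R x ^ X x) (a 0 + 1) ≤ a 0)
  have hg : P313.LF g := by
    refine LFP.and (LFP.le hNS (LF.proj 0)) (LFP.le (LF.mul ?_ ?_) (LF.proj 0))
    · exact LF.powMin hw1 hL1 (LF.proj 0)
    · exact LF.powMin hR1 hX1 (LF.proj 0)
  have hR2 : ∀ x, 2 ≤ R x := fun x => by simp only [R]; omega
  have hgiff : ∀ x m, g x (fun _ => m) ≠ 0 ↔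
      max (NS x) (w x ^ L x * R x ^ X x) ≤ m := by
    intro x m
    simp only [g]
    rw [ind_ne_zero, min_mul_min_le (Nat.one_le_pow _ _ (h1w x))
      (Nat.one_le_pow _ _ (by have := hR2 x; omega))]
    omega
  let Nx : List Bool → ℕ := fun x => max (NS x) (w x ^ L x * R x ^ X x)
  have hdec : ∃ (D : RTM) (e : ℕ), D.Decides {x | F x (fun _ => Nx x) ≠ 0}
      (fun n => (2 : ℝ) ^ (e * S n + e)) (fun n => e * S n + e) := by
   refine pad_decides_real hF hg hS0 (c := (9 + c) * c1 + 3) (fun x => ?_)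
   set N := max (NS x) (w x ^ L x * R x ^ X x) with hN
   refine ⟨N, fun m hm => ?_, (hgiff x N).2 le_rfl, ?_, Iff.rfl⟩
   · by_contra h
     have := (hgiff x m).1 h
     omega
   · have hN1 : 1 ≤ N := by
       have h2 : 1 ≤ w x ^ L x * R x ^ X x :=
         Nat.mul_pos (Nat.pow_pos (h1w x)) (Nat.pow_pos (by have := hR2 x; omega))
       omega
     have h3 : x.length + N + 2 ≤ 2 * (R x * N) := by
       have h4 : x.length + 2 ≤ R x := by simp only [R]; omega
       have h5 : R x ≤ R x * N := Nat.le_mul_of_pos_right _ hN1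
       have h6 : N ≤ R x * N := Nat.le_mul_of_pos_left _ (by have := hR2 x; omega)
       omega
     have h4 : Nat.log 2 (x.length + N + 2) ≤ 1 + 1 + (Nat.log 2 (R x) + 1 + Nat.log 2 N) := by
       refine (Nat.log_mono_right h3).trans ((log_mul_le _ _).trans ?_)
       have h5 : Nat.log 2 2 = 1 := by
         have := Nat.log_pow (b := 2) (by norm_num) 1
         simpa using this
       rw [h5]
       exact Nat.add_le_add_left (log_mul_le _ _) _
     have h5 : Nat.log 2 N ≤ Nat.log 2 (NS x) + (L x * (Nat.log 2 (w x) + 1) + 1 +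
         X x * (Nat.log 2 (R x) + 1)) := by
       have h6 : Nat.log 2 (w x ^ L x * R x ^ X x) ≤
           L x * (Nat.log 2 (w x) + 1) + 1 + X x * (Nat.log 2 (R x) + 1) :=
         (log_mul_le _ _).trans (Nat.add_le_add (Nat.add_le_add_right (log_pow_le _ _) 1)
           (log_pow_le _ _))
       rcases le_total (NS x) (w x ^ L x * R x ^ X x) with h7 | h7
       · rw [hN, max_eq_right h7]
         exact h6.trans (Nat.le_add_left _ _)
       · rw [hN, max_eq_left h7]
         exact Nat.le_add_right _ _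
     have h6 : Nat.log 2 (R x) + 1 ≤ (top x + 1) * (Nat.log 2 (R x) + 1) :=
       Nat.le_mul_of_pos_left _ (by omega)
     have h7 : Nat.log 2 (x.length + N + 2) ≤ Nat.log 2 (NS x) + L x * (Nat.log 2 (w x) + 1) +
         (1 + c) * ((top x + 1) * (Nat.log 2 (R x) + 1)) +
         6 * ((κ x + 1) * (Nat.log 2 (R x) + 1)) + 3 := by
       have h8 : X x * (Nat.log 2 (R x) + 1) =
         c * ((top x + 1) * (Nat.log 2 (R x) + 1)) +
           6 * ((κ x + 1) * (Nat.log 2 (R x) + 1)) := by simp only [X]; ring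
       have h9 : (1 + c) * ((top x + 1) * (Nat.log 2 (R x) + 1)) =
         (top x + 1) * (Nat.log 2 (R x) + 1) + c * ((top x + 1) * (Nat.log 2 (R x) + 1)) := by
         ring
       rw [h9]
       rw [h8] at h5
       omega
     have h8 : (Nat.log 2 (x.length + N + 2) : ℝ) ≤ (Nat.log 2 (NS x) : ℝ) +
         ((L x * (Nat.log 2 (w x) + 1) : ℕ) : ℝ) +
         (1 + c) * (((top x + 1) * (Nat.log 2 (R x) + 1) : ℕ) : ℝ) +
         6 * (((κ x + 1) * (Nat.log 2 (R x) + 1) : ℕ) : ℝ) + 3 := by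
       exact_mod_cast h7
     have h9 := hS1 x
     have h10 := hS2 x
     have h11 : (((top x + 1) * (Nat.log 2 (R x) + 1) : ℕ) : ℝ) ≤ c1 * S x.length + c1 := hS3 x
     have h11' : (((κ x + 1) * (Nat.log 2 (R x) + 1) : ℕ) : ℝ) ≤ c1 * S x.length + c1 := hS4 x
     have hc : (0 : ℝ) ≤ 1 + c := by positivity
     have h12 := mul_le_mul_of_nonneg_left h11 hc
     have h13 := hS0 x.length
     push_cast
     nlinarith
  obtain ⟨D, e', hD⟩ := hdec
  refine ⟨_, D, e', hD, fun x b hcard => ?_⟩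
  rw [Set.mem_setOf_eq]
  set N := Nx x with hN
  have hNSN : NS x ≤ N := le_max_left _ _
  have hWN : w x ^ L x * R x ^ X x ≤ N := le_max_right _ _
  have hmin : min (NS x) (N + 1) = NS x := min_eq_left (by omega)
  have hR1x : 1 ≤ R x := by have := hR2 x; omega
  have hW1 : w x ^ L x * R x ^ (c * (top x + 1)) ≤ N :=
    le_trans (Nat.mul_le_mul_left _ (Nat.pow_le_pow_right hR1x (Nat.le_add_right _ _))) hWN
  have hW2 : (R x ^ 2) ^ (3 * κ x + 3) ≤ N := by
    refine le_trans ?_ hWN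
    rw [← pow_mul]
    calc R x ^ (2 * (3 * κ x + 3)) ≤ R x ^ X x :=
          Nat.pow_le_pow_right hR1x (by simp only [X]; omega)
      _ ≤ _ := Nat.le_mul_of_pos_left _ (Nat.pow_pos (h1w x))
  simp only [F]
  rw [ind_ne_zero, hmin]
  have hsum : ∑ s ∈ range (NS x), ind (0 < savC (N0 x) (E x (Fin.cons s fun _ => N)) (R x ^ 2) N
      (κ x) (s0 x)) = #{s ∈ range (NS x) | 0 < savC (N0 x) (E x (Fin.cons s fun _ => N))
        (R x ^ 2) N (κ x) (s0 x)} := by
    rw [card_filter]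
    exact sum_congr rfl (fun s _ => ind_eq_ite _)
  rw [hsum]
  have hsN := hs0N x
  have hNB := hN0B x
  have hκBx := hκB x
  have hRx : R x = x.length + B x + 2 := rfl
  have hP1 : κ x < R x ^ 2 := by
    rw [hRx]
    nlinarith
  have hP2 : 2 * N0 x + 2 ≤ R x ^ 2 := by
    rw [hRx]
    nlinarith
  have hP3 : N0 x * N0 x ≤ R x ^ 2 := by
    rw [pow_two]
    exact Nat.mul_le_mul (by omega) (by omega)
  have hP0 : 2 < R x ^ 2 := by
    have := hR2 x
    nlinarith
  have hgood : ∀ s, (Restores (envS B w L st x s) p (top x) ∧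
      (rch (N0 x) (fun v u => v = u ∨
        thr x < val (envS B w L st x s) p (top x) (qy v u) (fun _ => 0)) (κ x) (s0 x) 0 ↔ b)) →
      (0 < savC (N0 x) (E x (Fin.cons s fun _ => N)) (R x ^ 2) N (κ x) (s0 x) ↔ b) := by
    intro s hs
    have h1 := savC_ne (N := N0 x) (E := E x (Fin.cons s fun _ => N)) (P := R x ^ 2) (M := N)
      (top := κ x) (v := s0 x) (u := 0) (by omega) (fun v u => edG_le _ _ v u) hP0 hP1 hP2 hP3
      hW2 hsN (by omega)
    rw [Nat.mul_zero, Nat.add_zero] at h1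
    rw [Nat.pos_iff_ne_zero, h1, ← hs.2]
    refine rch_congr (fun v hv u hu => ?_) (κ x) (s0 x) hsN 0 (by omega)
    have h2 : E x (Fin.cons s fun _ => N) v u ≠ 0 ↔ v = u ∨ thr x < G x ![v, u, s, N] := edG_ne
    rw [h2]
    have h3 := hval x ![v, u, s, N] (h1w x) (htopB x) (hqyB x v hv u hu) hW1 hs.1
    rw [h3]
    exact Iff.rfl
  by_cases hx : b
  · refine iff_of_true ?_ hx
    refine hcard.trans_le (Nat.mul_le_mul_left 2 (card_le_card (fun s hs => ?_)))
    rw [mem_filter] at hs ⊢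
    exact ⟨hs.1, (hgood s hs.2).2 hx⟩
  · refine iff_of_false (fun h => ?_) hx
    have hdis : Disjoint {s ∈ range (NS x) | 0 < savC (N0 x) (E x (Fin.cons s fun _ => N))
        (R x ^ 2) N (κ x) (s0 x)}
        {s ∈ range (NS x) | Restores (envS B w L st x s) p (top x) ∧
          (rch (N0 x) (fun v u => v = u ∨
            thr x < val (envS B w L st x s) p (top x) (qy v u) (fun _ => 0)) (κ x) (s0 x) 0 ↔
              b)} := by
      rw [disjoint_left]
      intro s hs hs'
      rw [mem_filter] at hs hs'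
      exact hx ((hgood s hs'.2).1 hs.2)
    have h14 := card_le_card (union_subset
      (filter_subset (fun s => 0 < savC (N0 x) (E x (Fin.cons s fun _ => N))
        (R x ^ 2) N (κ x) (s0 x)) (range (NS x)))
      (filter_subset (fun s => Restores (envS B w L st x s) p (top x) ∧
        (rch (N0 x) (fun v u => v = u ∨
          thr x < val (envS B w L st x s) p (top x) (qy v u) (fun _ => 0)) (κ x) (s0 x) 0 ↔ b))
        (range (NS x))))
    rw [card_union_of_disjoint hdis, card_range] at h14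
    omega

end Vale.Agent.P313.H947
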