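import Vale.Agent.P313.H947.Real

/-!
The final statements.
-/

namespace Vale.Agent.P313.H947

open H427L ZL
open H427 (one_le_logb one_le_logb2 natLog_le_logb)

theorem coins_all {M : RTM} {c : ℕ} {lam : List Bool → ℕ}
    (h : ∀ x : List Bool, c * (Nat.log 2 (x.length + 2) + 1) ≤ lam x) (x : List Bool) (v : Bool) :
    M.probAt x v ((x.length + 2) ^ c) (2 ^ lam x + 1) M.init = 0 :=
  Sel.probAt_zero_of_lt x v _ _ _ (lt_of_le_of_lt ((T_le_log c x).trans
    (Nat.pow_le_pow_right (by norm_num) (h x))) (Nat.lt_succ_self _))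

/-- Few coins, constructible exponent. -/
theorem sepK_few {κ lam : ℕ → ℕ} (hκ : Sel.LFx (fun x => κ x.length))
    (hlam : Sel.LFx (fun x => lam x.length)) (M : RTM) (c e : ℕ)
    (hM : M.Bounded (fun n => (n + 2) ^ c) (fun n => c * Nat.log 2 (n + 2)))
    (hcoin : ∀ (x : List Bool) (v : Bool),
      M.probAt x v ((x.length + 2) ^ c) (2 ^ lam x.length + 1) M.init = 0) :
    ∃ (A : Set (List Bool)) (D : RTM) (C : ℝ) (d : ℕ),
      D.Decides A
        (fun n => (2 : ℝ) ^ (C * (Real.logb 2 (n + 2) * (Rl lam n + κ n))))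
        (fun n => C * (Real.logb 2 (n + 2) * (Rl lam n + κ n))) ∧
      ∀ x : List Bool,
        (1 / ((x.length : ℚ) + 2) ^ (e * 2 ^ κ x.length) ≤
          M.probAt x true ((x.length + 2) ^ c) 0 M.init → x ∈ A) ∧
        (M.probAt x true ((x.length + 2) ^ c) 0 M.init <
          1 / ((x.length : ℚ) + 2) ^ (d * 2 ^ κ x.length) → x ∉ A) := by
  have hS1 : ∀ n : ℕ, 1 ≤ Real.logb 2 ((n : ℝ) + 2) * (Rl lam n + κ n) := by
    intro n
    have h1 := one_le_logb n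
    have h2 := one_le_Rl lam n
    have h3 : (0 : ℝ) ≤ κ n := Nat.cast_nonneg _
    nlinarith
  obtain ⟨A, D, e', d, hD, hA⟩ := decides_small hM hlam hcoin
    (la := fun n => (lam n : ℝ)) (fun x => le_rfl) (fun n => Nat.cast_nonneg _) e hκ
    (S := fun n => Real.logb 2 ((n : ℝ) + 2) * (Rl lam n + κ n)) (fun n => by
      rw [spl_eq]
      have h1 := one_le_logb n
      have h3 : (0 : ℝ) ≤ κ n := Nat.cast_nonneg _
      exact mul_le_mul_of_nonneg_left (by linarith) (by linarith)) (c2 := 1) (fun x => by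
      have h1 := one_le_logb x.length
      have h2 := one_le_Rl lam x.length
      have h3 : (0 : ℝ) ≤ κ x.length := Nat.cast_nonneg _
      have h5 := natLog_le_logb (x.length + 2) (by omega)
      push_cast at h5 ⊢
      nlinarith [mul_le_mul_of_nonneg_left h5 h3])
  exact ⟨A, D, 2 * e' * 1, d, decides_clean hD hS1 (C := 1) (fun n => by rw [one_mul]), hA⟩

/-- All coins, constructible exponent. -/
theorem sepK_all {κ : ℕ → ℕ} (hκ : Sel.LFx (fun x => κ x.length)) (M : RTM) (c e : ℕ)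
    (hM : M.Bounded (fun n => (n + 2) ^ c) (fun n => c * Nat.log 2 (n + 2))) :
    ∃ (A : Set (List Bool)) (D : RTM) (C : ℝ) (d : ℕ),
      D.Decides A
        (fun n => (2 : ℝ) ^ (C * (Real.logb 2 (n + 2) ^ ((4 : ℝ) / 3) *
          Real.logb 2 (Real.logb 2 (n + 2) + 1) ^ ((2 : ℝ) / 3) + κ n * Real.logb 2 (n + 2))))
        (fun n => C * (Real.logb 2 (n + 2) ^ ((4 : ℝ) / 3) *
          Real.logb 2 (Real.logb 2 (n + 2) + 1) ^ ((2 : ℝ) / 3) + κ n * Real.logb 2 (n + 2))) ∧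
      ∀ x : List Bool,
        (1 / ((x.length : ℚ) + 2) ^ (e * 2 ^ κ x.length) ≤
          M.probAt x true ((x.length + 2) ^ c) 0 M.init → x ∈ A) ∧
        (M.probAt x true ((x.length + 2) ^ c) 0 M.init <
          1 / ((x.length : ℚ) + 2) ^ (d * 2 ^ κ x.length) → x ∉ A) := by
  have hlam : Sel.LFx (fun x => c * (Nat.log 2 (x.length + 2) + 1)) :=
    LF.mul (LF.const c) (LF.log2 (LF.len.add (LF.const 2))).succ
  obtain ⟨C', hC'⟩ := spl_le c
  have hspl1 : ∀ n, 1 ≤ spl (fun n => ((c * (Nat.log 2 (n + 2) + 1) : ℕ) : ℝ)) n :=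
    fun n => one_le_spl n (Nat.cast_nonneg _)
  have hκL : ∀ n : ℕ, 0 ≤ (κ n : ℝ) * Real.logb 2 ((n : ℝ) + 2) := fun n =>
    mul_nonneg (Nat.cast_nonneg _) (by linarith [one_le_logb n])
  obtain ⟨A, D, e', d, hD, hA⟩ := decides_small hM hlam (coins_all (fun x => le_rfl))
    (la := fun n => ((c * (Nat.log 2 (n + 2) + 1) : ℕ) : ℝ)) (fun x => le_rfl)
    (fun n => Nat.cast_nonneg _) e hκ
    (S := fun n => spl (fun n => ((c * (Nat.log 2 (n + 2) + 1) : ℕ) : ℝ)) n +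
      κ n * Real.logb 2 ((n : ℝ) + 2)) (fun n => by linarith [hκL n]) (c2 := 1) (fun x => by
      have h1 := hspl1 x.length
      have h3 : (0 : ℝ) ≤ κ x.length := Nat.cast_nonneg _
      have h5 := natLog_le_logb (x.length + 2) (by omega)
      have h6 := mul_le_mul_of_nonneg_left h5 h3
      have h7 : ((κ x.length * Nat.log 2 (x.length + 2) : ℕ) : ℝ) ≤
          κ x.length * Real.logb 2 ((x.length : ℝ) + 2) := by
        push_cast at h6 ⊢
        exact h6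
      refine h7.trans ?_
      rw [Nat.cast_one, one_mul]
      linarith)
  refine ⟨A, D, 2 * e' * max C' 1, d, decides_clean (S' := fun n =>
    Real.logb 2 ((n : ℝ) + 2) ^ ((4 : ℝ) / 3) *
      Real.logb 2 (Real.logb 2 ((n : ℝ) + 2) + 1) ^ ((2 : ℝ) / 3) +
      κ n * Real.logb 2 ((n : ℝ) + 2)) hD (fun n => by linarith [hspl1 n, hκL n])
    (C := max C' 1) (fun n => ?_), hA⟩
  have h1 := hC' n
  have h2 : 0 ≤ H427.sp n := by
    unfold H427.sp
    exact mul_nonneg (Real.rpow_nonneg (by linarith [one_le_logb n]) _)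
      (Real.rpow_nonneg (by linarith [one_le_logb2 n]) _)
  have h3 : C' * H427.sp n ≤ max C' 1 * H427.sp n :=
    mul_le_mul_of_nonneg_right (le_max_left _ _) h2
  have h4 : 1 * ((κ n : ℝ) * Real.logb 2 ((n : ℝ) + 2)) ≤
      max C' 1 * ((κ n : ℝ) * Real.logb 2 ((n : ℝ) + 2)) :=
    mul_le_mul_of_nonneg_right (le_max_right _ _) (hκL n)
  have e1 : max C' 1 * (Real.logb 2 ((n : ℝ) + 2) ^ ((4 : ℝ) / 3) *
      Real.logb 2 (Real.logb 2 ((n : ℝ) + 2) + 1) ^ ((2 : ℝ) / 3) +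
      κ n * Real.logb 2 ((n : ℝ) + 2)) = max C' 1 * H427.sp n +
      max C' 1 * ((κ n : ℝ) * Real.logb 2 ((n : ℝ) + 2)) := by
    unfold H427.sp
    ring
  rw [e1]
  linarith

/-! ### Thresholds with real exponents -/

theorem cast_thr (n k : ℕ) : (((1 : ℚ) / ((n : ℚ) + 2) ^ k : ℚ) : ℝ) =
    ((n : ℝ) + 2) ^ (-(k : ℝ)) := by
  rw [Real.rpow_neg (by positivity), Real.rpow_natCast]
  push_cast
  rw [one_div]

theorem thr_up {n k : ℕ} {y : ℝ} (h : y ≤ k) :
    (((1 : ℚ) / ((n : ℚ) + 2) ^ (1 * 2 ^ k) : ℚ) : ℝ) ≤ ((n : ℝ) + 2) ^ (-((2 : ℝ) ^ y)) := by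
  rw [cast_thr]
  apply Real.rpow_le_rpow_of_exponent_le
  · have : (0 : ℝ) ≤ n := Nat.cast_nonneg _
    linarith
  · apply neg_le_neg
    rw [one_mul]
    push_cast
    rw [← Real.rpow_natCast]
    exact Real.rpow_le_rpow_of_exponent_le (by norm_num) h

theorem thr_dn {n k d b : ℕ} {R : ℝ} (hR : 1 ≤ R) (h : (k : ℝ) ≤ b * R) :
    ((n : ℝ) + 2) ^ (-((2 : ℝ) ^ (((d : ℝ) + b) * R))) ≤
      (((1 : ℚ) / ((n : ℚ) + 2) ^ (d * 2 ^ k) : ℚ) : ℝ) := by
  rw [cast_thr]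
  apply Real.rpow_le_rpow_of_exponent_le
  · have : (0 : ℝ) ≤ n := Nat.cast_nonneg _
    linarith
  · apply neg_le_neg
    have g2 : (d : ℝ) ≤ 2 ^ ((d : ℝ) * R) := by
      have e1 : (d : ℝ) ≤ 2 ^ (d : ℝ) := by
        rw [Real.rpow_natCast]
        exact_mod_cast (Nat.lt_two_pow_self (n := d)).le
      refine e1.trans (Real.rpow_le_rpow_of_exponent_le (by norm_num) ?_)
      exact le_mul_of_one_le_right (Nat.cast_nonneg _) hR
    have g3 : (2 : ℝ) ^ k ≤ 2 ^ ((b : ℝ) * R) := by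
      rw [← Real.rpow_natCast]
      exact Real.rpow_le_rpow_of_exponent_le (by norm_num) h
    rw [add_mul, Real.rpow_add (by norm_num)]
    push_cast
    exact mul_le_mul g2 g3 (by positivity) (by positivity)

/-- Few coins, real exponents. -/
theorem sepR_few {lam : ℕ → ℕ} (hlam : Sel.LFx (fun x => lam x.length)) (M : RTM) (c e : ℕ)
    (hM : M.Bounded (fun n => (n + 2) ^ c) (fun n => c * Nat.log 2 (n + 2)))
    (hcoin : ∀ (x : List Bool) (v : Bool),
      M.probAt x v ((x.length + 2) ^ c) (2 ^ lam x.length + 1) M.init = 0) :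
    ∃ (A : Set (List Bool)) (D : RTM) (e' : ℕ) (d : ℝ), 0 ≤ d ∧
      D.Decides A (fun n => (2 : ℝ) ^ (e' * spl (fun n => (lam n : ℝ)) n + e'))
        (fun n => e' * spl (fun n => (lam n : ℝ)) n + e') ∧
      ∀ x : List Bool,
        (((x.length : ℝ) + 2) ^ (-((2 : ℝ) ^ (e * Rl lam x.length))) ≤
          (M.probAt x true ((x.length + 2) ^ c) 0 M.init : ℝ) → x ∈ A) ∧
        ((M.probAt x true ((x.length + 2) ^ c) 0 M.init : ℝ) <
          ((x.length : ℝ) + 2) ^ (-((2 : ℝ) ^ (d * Rl lam x.length))) → x ∉ A) := by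
  have hκ : Sel.LFx (fun x => 3 * e * kap lam x.length) := LF.mul (LF.const (3 * e)) (lfx_kap hlam)
  have hk1 : ∀ n, (e : ℝ) * Rl lam n ≤ ((3 * e * kap lam n : ℕ) : ℝ) := by
    intro n
    have h1 := Rl_le lam n
    have h2 : (0 : ℝ) ≤ e := Nat.cast_nonneg _
    push_cast
    nlinarith [mul_le_mul_of_nonneg_left h1 h2]
  have hk2 : ∀ n, ((3 * e * kap lam n : ℕ) : ℝ) ≤ ((15 * e : ℕ) : ℝ) * Rl lam n := by
    intro n
    have h1 := le_Rl lam n
    have h2 : (0 : ℝ) ≤ e := Nat.cast_nonneg _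
    push_cast
    nlinarith [mul_le_mul_of_nonneg_left h1 h2]
  obtain ⟨A, D, e', d, hD, hA⟩ := decides_small hM hlam hcoin
    (la := fun n => (lam n : ℝ)) (fun x => le_rfl) (fun n => Nat.cast_nonneg _) 1 hκ
    (S := spl (fun n => (lam n : ℝ))) (fun n => le_rfl) (c2 := 15 * e) (fun x => by
      have h1 := one_le_logb x.length
      have h2 := hk2 x.length
      have h5 := natLog_le_logb (x.length + 2) (by omega)
      have h6 : (0 : ℝ) ≤ ((15 * e : ℕ) : ℝ) := Nat.cast_nonneg _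
      have h7 : (0 : ℝ) ≤ (Nat.log 2 (x.length + 2) : ℝ) := Nat.cast_nonneg _
      have h8 := one_le_Rl lam x.length
      rw [spl_eq, Nat.cast_mul (3 * e * kap lam x.length)]
      push_cast at h5
      have h9 : ((3 * e * kap lam x.length : ℕ) : ℝ) * (Nat.log 2 (x.length + 2) : ℝ) ≤
          (((15 * e : ℕ) : ℝ) * Rl lam x.length) * Real.logb 2 ((x.length : ℝ) + 2) :=
        mul_le_mul h2 h5 h7 (mul_nonneg h6 (by linarith))
      have h10 : (((15 * e : ℕ) : ℝ) * Rl lam x.length) * Real.logb 2 ((x.length : ℝ) + 2) =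
          ((15 * e : ℕ) : ℝ) * (Real.logb 2 ((x.length : ℝ) + 2) * Rl lam x.length) := by ring
      rw [h10] at h9
      linarith)
  refine ⟨A, D, e', (d : ℝ) + ((15 * e : ℕ) : ℝ), by positivity, hD, fun x => ⟨fun h => ?_,
    fun h => ?_⟩⟩
  · refine (hA x).1 ?_
    rw [← Rat.cast_le (K := ℝ)]
    exact (thr_up (hk1 x.length)).trans h
  · refine (hA x).2 ?_
    rw [← Rat.cast_lt (K := ℝ)]
    exact lt_of_lt_of_le h (thr_dn (one_le_Rl lam x.length) (hk2 x.length))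

/-- The exponent for all machines. -/
noncomputable def Ra (n : ℕ) : ℝ := Real.logb 2 (n + 2) ^ ((1 : ℝ) / 3) *
  Real.logb 2 (Real.logb 2 (n + 2) + 1) ^ ((2 : ℝ) / 3)

theorem sp_eq (n : ℕ) : H427.sp n = Real.logb 2 ((n : ℝ) + 2) * Ra n := by
  have h1 := one_le_logb n
  unfold H427.sp Ra
  have e7 : Real.logb 2 ((n : ℝ) + 2) * Real.logb 2 ((n : ℝ) + 2) ^ ((1 : ℝ) / 3) =
      Real.logb 2 ((n : ℝ) + 2) ^ ((4 : ℝ) / 3) := by
    rw [← Real.rpow_one_add' (by linarith) (by norm_num)]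
    norm_num
  rw [← e7]
  ring

theorem Ra_le (c n : ℕ) : Ra n ≤ Rl (fun n => (c + 1) * (Nat.log 2 (n + 2) + 1)) n := by
  have h1 := one_le_logb n
  have h2 := one_le_logb2 n
  obtain ⟨la, hla⟩ : ∃ la : ℝ, la = (((c + 1) * (Nat.log 2 (n + 2) + 1) : ℕ) : ℝ) := ⟨_, rfl⟩
  have h3 : Real.logb 2 ((n : ℝ) + 2) ≤ la := by
    have h4 := Nat.lt_pow_succ_log_self (b := 2) (by norm_num) (n + 2)
    have h5 : Real.logb 2 ((n : ℝ) + 2) < (Nat.log 2 (n + 2) : ℝ) + 1 := by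
      rw [Real.logb_lt_iff_lt_rpow (by norm_num) (by positivity)]
      have h4' : ((n + 2 : ℕ) : ℝ) < ((2 ^ (Nat.log 2 (n + 2) + 1) : ℕ) : ℝ) := by
        exact_mod_cast h4
      have h5 : (2 : ℝ) ^ ((Nat.log 2 (n + 2) : ℝ) + 1) = 2 ^ (Nat.log 2 (n + 2) + 1) := by
        rw [← Real.rpow_natCast]
        push_cast
        rfl
      rw [h5]
      push_cast at h4'
      exact h4'
    have h6 : Nat.log 2 (n + 2) + 1 ≤ (c + 1) * (Nat.log 2 (n + 2) + 1) :=
      Nat.le_mul_of_pos_left _ (Nat.succ_pos _)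
    have h7 : ((Nat.log 2 (n + 2) + 1 : ℕ) : ℝ) ≤ la := by
      rw [hla]
      exact_mod_cast h6
    push_cast at h7
    linarith
  obtain ⟨l, hl⟩ : ∃ l, l = Real.logb 2 (Real.logb 2 ((n : ℝ) + 2) + 1) := ⟨_, rfl⟩
  have hl1 : 1 ≤ l := by rw [hl]; exact h2
  have h4 : l ≤ Real.logb 2 (la + l + 1) := by
    conv_lhs => rw [hl]
    exact Real.logb_le_logb_of_le (by norm_num) (by linarith) (by linarith)
  have e : Rl (fun n => (c + 1) * (Nat.log 2 (n + 2) + 1)) n =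
      la ^ ((1 : ℝ) / 3) * Real.logb 2 (la + l + 1) ^ ((2 : ℝ) / 3) +
        Real.sqrt (l * Real.logb 2 (la + l + 1)) := by
    rw [hla, hl]
    rfl
  have e2 : Ra n = Real.logb 2 ((n : ℝ) + 2) ^ ((1 : ℝ) / 3) * l ^ ((2 : ℝ) / 3) := by
    rw [hl]
    rfl
  rw [e, e2]
  have h5 : Real.logb 2 ((n : ℝ) + 2) ^ ((1 : ℝ) / 3) * l ^ ((2 : ℝ) / 3) ≤
      la ^ ((1 : ℝ) / 3) * Real.logb 2 (la + l + 1) ^ ((2 : ℝ) / 3) :=
    mul_le_mul (Real.rpow_le_rpow (by linarith) h3 (by norm_num))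
      (Real.rpow_le_rpow (by linarith) h4 (by norm_num)) (Real.rpow_nonneg (by linarith) _)
      (Real.rpow_nonneg (by linarith) _)
  have h6 := Real.sqrt_nonneg (l * Real.logb 2 (la + l + 1))
  linarith

/-- All coins, real exponents. -/
theorem sepR_all (M : RTM) (c e : ℕ)
    (hM : M.Bounded (fun n => (n + 2) ^ c) (fun n => c * Nat.log 2 (n + 2))) :
    ∃ (A : Set (List Bool)) (D : RTM) (C d : ℝ),
      D.Decides A
        (fun n => (2 : ℝ) ^ (C * (Real.logb 2 (n + 2) ^ ((4 : ℝ) / 3) *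
          Real.logb 2 (Real.logb 2 (n + 2) + 1) ^ ((2 : ℝ) / 3))))
        (fun n => C * (Real.logb 2 (n + 2) ^ ((4 : ℝ) / 3) *
          Real.logb 2 (Real.logb 2 (n + 2) + 1) ^ ((2 : ℝ) / 3))) ∧
      ∀ x : List Bool,
        (((x.length : ℝ) + 2) ^ (-((2 : ℝ) ^ (e * Ra x.length))) ≤
          (M.probAt x true ((x.length + 2) ^ c) 0 M.init : ℝ) → x ∈ A) ∧
        ((M.probAt x true ((x.length + 2) ^ c) 0 M.init : ℝ) <
          ((x.length : ℝ) + 2) ^ (-((2 : ℝ) ^ (d * Ra x.length))) → x ∉ A) := by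
  have hlam : Sel.LFx (fun x => (c + 1) * (Nat.log 2 (x.length + 2) + 1)) :=
    LF.mul (LF.const (c + 1)) (LF.log2 (LF.len.add (LF.const 2))).succ
  obtain ⟨A, D, e', d, hd, hD, hA⟩ := sepR_few
    (lam := fun n => (c + 1) * (Nat.log 2 (n + 2) + 1)) hlam M c e hM
    (coins_all (lam := fun x => (c + 1) * (Nat.log 2 (x.length + 2) + 1)) (fun x =>
      Nat.mul_le_mul_right _ (Nat.le_succ _)))
  obtain ⟨C', hC'⟩ := spl_le (c + 1)
  have hR : ∀ n, Rl (fun n => (c + 1) * (Nat.log 2 (n + 2) + 1)) n ≤ C' * Ra n := by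
    intro n
    have h1 := hC' n
    have h2 : spl (fun n => (((c + 1) * (Nat.log 2 (n + 2) + 1) : ℕ) : ℝ)) n =
      Real.logb 2 ((n : ℝ) + 2) * Rl (fun n => (c + 1) * (Nat.log 2 (n + 2) + 1)) n := rfl
    rw [h2, sp_eq] at h1
    have h3 := one_le_logb n
    have h4 : Real.logb 2 ((n : ℝ) + 2) * Rl (fun n => (c + 1) * (Nat.log 2 (n + 2) + 1)) n ≤
        Real.logb 2 ((n : ℝ) + 2) * (C' * Ra n) := by linarith
    exact le_of_mul_le_mul_left h4 (by linarith)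
  have hn2 : ∀ n : ℕ, (1 : ℝ) ≤ (n : ℝ) + 2 := fun n => by
    have : (0 : ℝ) ≤ n := Nat.cast_nonneg _
    linarith
  refine ⟨A, D, 2 * e' * C', d * C', decides_clean (S' := H427.sp) hD
    (fun n => one_le_spl n (Nat.cast_nonneg _)) hC', fun x => ⟨fun h => ?_, fun h => ?_⟩⟩
  · refine (hA x).1 (le_trans ?_ h)
    apply Real.rpow_le_rpow_of_exponent_le (hn2 _)
    apply neg_le_neg
    apply Real.rpow_le_rpow_of_exponent_le (by norm_num)
    exact mul_le_mul_of_nonneg_left (Ra_le c x.length) (Nat.cast_nonneg _)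
  · refine (hA x).2 (lt_of_lt_of_le h ?_)
    apply Real.rpow_le_rpow_of_exponent_le (hn2 _)
    apply neg_le_neg
    apply Real.rpow_le_rpow_of_exponent_le (by norm_num)
    rw [mul_assoc]
    exact mul_le_mul_of_nonneg_left (hR x.length) hd

end Vale.Agent.P313.H947
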