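import Vale.Agent.P313.H947.Val

/-!
Small success probabilities in the space of the two-unit algorithm.
-/

namespace Vale.Agent.P313.H947

open Finset BP H126 H427L ZL SV
open H427 (statN one_le_logb one_le_logb2 natLog_le_logb)
open scoped Classical

variable {M : RTM} {c : Cf}

theorem closed_cs (hM : M.Bounded (fun n => (n + 2) ^ c.c) (fun n => c.c * Nat.log 2 (n + 2)))
    (x : List Bool) : Closed (csx M c x) (Sel.sN M c.c x) := by
  intro v hv b
  have h := csxOK hM x v (by rw [parx_n]; omega) b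
  rw [parx_n] at h
  omega

/-- The edges. -/
def EdS (M : RTM) (c : Cf) (x : List Bool) (sd : ℕ) (v u : ℕ) : Prop :=
  v = u ∨ thrS M c x < (data (parx M c x).toPar (theSem (parx M c x)) (csx M c x)
    (oSd (parx M c x) sd) (parx M c x).S).A v u

/-- Completeness. -/
theorem rch_complete
    (hM : M.Bounded (fun n => (n + 2) ^ c.c) (fun n => c.c * Nat.log 2 (n + 2)))
    (x : List Bool) (sd : ℕ) {T W : ℕ} (cn : Cnd M c T W x)
    (hW : 2 * Sel.sN M c.c x * (T + 1) ≤ W) {i s : ℕ} (hs : s < Sel.sN M c.c x)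
    (h : (1 / (W : ℚ)) ^ (2 ^ i + 1) ≤ hit (csx M c x) 0 T s) :
    rch (Sel.sN M c.c x) (EdS M c x sd) i s 0 := by
  have hW1 : (1 : ℚ) ≤ W := by exact_mod_cast cn.W1
  have hWq : 2 * (Sel.sN M c.c x : ℚ) * ((T : ℚ) + 1) ≤ W := by exact_mod_cast hW
  refine rch_of_hit (closed_cs hM x) hW1 hWq ?_ i s hs 0 (by omega) T le_rfl h
  intro v hv u hu t ht h1
  cases t with
  | zero =>
    by_cases h2 : v = u
    · exact Or.inl h2
    · exfalso
      have e : hit (csx M c x) u 0 v = 0 := by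
        show (if v = u then (1 : ℚ) else 0) = 0
        rw [if_neg h2]
      rw [e] at h1
      have h3 : (0 : ℚ) < (1 / (W : ℚ)) ^ 2 := pow_pos (one_div_pos.2 (by linarith)) 2
      linarith
  | succ t =>
    right
    refine (edge_ok hM x sd cn (v := v) (u := u) (by rw [parx_n]; omega)
      (by rw [parx_n]; omega)).1 t ht ?_
    rw [CT.hitR_eq]
    have h2 := (Rat.cast_le (K := ℝ)).2 h1
    push_cast at h2
    exact h2

/-- Soundness. -/
theorem rch_sound
    (hM : M.Bounded (fun n => (n + 2) ^ c.c) (fun n => c.c * Nat.log 2 (n + 2)))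
    (x : List Bool) (sd : ℕ) {T W : ℕ} (cn : Cnd M c T W x) {i s : ℕ}
    (hs : s < Sel.sN M c.c x) (h0 : 0 < Sel.sN M c.c x)
    (h : rch (Sel.sN M c.c x) (EdS M c x sd) i s 0) :
    ∃ t, (1 / (2 : ℚ) ^ (hh M c x + 1)) ^ 2 ^ i ≤ hit (csx M c x) 0 t s := by
  refine hit_of_rch (N := Sel.sN M c.c x) (E := EdS M c x sd) (by positivity) ?_ i s hs 0 h0 h
  intro v hv u hu h1
  rcases h1 with h1 | h1
  · refine ⟨0, ?_⟩
    rw [h1, hit_self]
    rw [div_le_one (by positivity)]
    exact one_le_pow₀ (by norm_num)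
  · obtain ⟨t, ht⟩ := (edge_ok hM x sd cn (v := v) (u := u) (by rw [parx_n]; omega)
      (by rw [parx_n]; omega)).2 h1
    refine ⟨t + 1, ?_⟩
    rw [CT.hitR_eq] at ht
    rw [← Rat.cast_le (K := ℝ)]
    push_cast
    exact ht

/-- After the time of the machine nothing changes. -/
theorem hit_le_T
    (hM : M.Bounded (fun n => (n + 2) ^ c.c) (fun n => c.c * Nat.log 2 (n + 2)))
    (x : List Bool) (t : ℕ) :
    hit (csx M c x) 0 t (stx M c x) ≤ M.probAt x true ((x.length + 2) ^ c.c) 0 M.init := by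
  have hch := CT.chain_ok hM x (n_ge (M := M) (c := c) x)
  have hpr := CT.chain_prob hM x
  have hcs : csx M c x = M.cs x (Sel.sW M c.c x) (Sel.sT c.c x) := rfl
  have hst : stx M c x = M.startN x (Sel.sW M c.c x) (Sel.sT c.c x) := rfl
  rw [← hcs] at hch hpr
  rw [← hst] at hch hpr
  have h1 : hit (csx M c x) 0 (Sel.sT c.c x) (stx M c x) =
      M.probAt x true ((x.length + 2) ^ c.c) 0 M.init := by
    rw [CT.hitR_eq] at hpr
    exact_mod_cast hpr
  have h2 : hit (csx M c x) 0 (Sel.sT c.c x) (stx M c x) +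
      hit (csx M c x) 1 (Sel.sT c.c x) (stx M c x) = 1 := by
    have h3 := hch.total
    rw [CT.hitR_eq, CT.hitR_eq] at h3
    exact_mod_cast h3
  rw [← h1]
  rcases le_total t (Sel.sT c.c x) with h | h
  · have h4 := SV.hit_mono (cs := csx M c x) (u := 0) hch.fix0 t (Sel.sT c.c x - t) (stx M c x)
    rwa [Nat.add_sub_cancel' h] at h4
  · have h4 := SV.hit_mono (cs := csx M c x) (u := 1) hch.fix1 (Sel.sT c.c x) (t - Sel.sT c.c x)
      (stx M c x)
    rw [Nat.add_sub_cancel' h] at h4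
    have h5 := CT.hit_total_le (csx M c x) t (stx M c x)
    linarith

theorem ell_le_spl {la : ℕ → ℝ} (n : ℕ) (h0 : 0 ≤ la n) :
    Real.logb 2 ((n : ℝ) + 2) ≤ spl la n := by
  have h1 := one_le_logb n
  have h2 := one_le_logb2 n
  have h4 := one_le_ll n h0
  have h3 : 0 ≤ la n ^ ((1 : ℝ) / 3) * ll la n ^ ((2 : ℝ) / 3) :=
    mul_nonneg (Real.rpow_nonneg h0 _) (Real.rpow_nonneg (by linarith) _)
  have h5 : 1 ≤ Real.sqrt (Real.logb 2 (Real.logb 2 ((n : ℝ) + 2) + 1) * ll la n) := by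
    rw [Real.one_le_sqrt]
    nlinarith
  change _ ≤ Real.logb 2 ((n : ℝ) + 2) * (la n ^ ((1 : ℝ) / 3) * ll la n ^ ((2 : ℝ) / 3) +
    Real.sqrt (Real.logb 2 (Real.logb 2 ((n : ℝ) + 2) + 1) * ll la n))
  nlinarith

/-- The time is at most a power of two. -/
theorem T_le_log (c0 : ℕ) (x : List Bool) :
    Sel.sT c0 x ≤ 2 ^ (c0 * (Nat.log 2 (x.length + 2) + 1)) := by
  unfold Sel.sT
  rw [mul_comm, pow_mul]
  exact Nat.pow_le_pow_left (Nat.lt_pow_succ_log_self (by norm_num) _).le c0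

/-- The exponent of the stopping probability. -/
theorem rkK_le (x : List Bool) :
    (parx M c x).rk * (parx M c x).K ≤ 2 * lax M c x + 6 := by
  rw [parx_rk, parx_K]
  have h1 : (ux M c x).rk * (((ux M c x).la + 5) / (ux M c x).rk) ≤ (ux M c x).la + 5 :=
    Nat.mul_div_le _ _
  have h2 : (ux M c x).rk ≤ (ux M c x).la + 1 := Nat.succ_le_succ (Nat.div_le_self _ _)
  have h3 : (ux M c x).la = lax M c x := rfl
  unfold pK
  rw [mul_add, mul_one]
  omega

/-- THE GENERAL THEOREM. -/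
theorem decides_small {M : RTM} {c0 : ℕ}
    (hM : M.Bounded (fun n => (n + 2) ^ c0) (fun n => c0 * Nat.log 2 (n + 2)))
    {lam : List Bool → ℕ} (hlam : Sel.LFx lam)
    (hcoin : ∀ (x : List Bool) (v : Bool),
      M.probAt x v ((x.length + 2) ^ c0) (2 ^ lam x + 1) M.init = 0)
    {la : ℕ → ℝ} (hla : ∀ x, (lam x : ℝ) ≤ la x.length) (hla0 : ∀ n, 0 ≤ la n)
    (e : ℕ) {κ : List Bool → ℕ} (hκ : Sel.LFx κ) {S : ℕ → ℝ} (hS : ∀ n, spl la n ≤ S n) {c2 : ℕ}
    (hκS : ∀ x, ((κ x * Nat.log 2 (x.length + 2) : ℕ) : ℝ) ≤ c2 * S x.length + c2) :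
    ∃ (A : Set (List Bool)) (D : RTM) (e' d : ℕ),
      D.Decides A (fun n => (2 : ℝ) ^ (e' * S n + e')) (fun n => e' * S n + e') ∧
      ∀ x : List Bool,
        (1 / ((x.length : ℚ) + 2) ^ (e * 2 ^ κ x) ≤
          M.probAt x true ((x.length + 2) ^ c0) 0 M.init → x ∈ A) ∧
        (M.probAt x true ((x.length + 2) ^ c0) 0 M.init <
          1 / ((x.length : ℚ) + 2) ^ (d * 2 ^ κ x) → x ∉ A) := by
  obtain ⟨d0, hd0⟩ := LF.pb hκ
  have hκ0 : ∀ x, κ x ≤ (x.length + 2) ^ d0 := by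
    intro x
    have h1 := hd0 x Fin.elim0
    have h2 : mu x (Fin.elim0 : Fin 0 → ℕ) = x.length + 2 := by simp [mu]
    rwa [h2] at h1
  have hlog : Sel.LFx (fun x => Nat.log 2 (x.length + 2) + 1) :=
    (LF.log2 (LF.len.add (LF.const 2))).succ
  let c : Cf := ⟨c0, 4 * c0 + 2 * e + 6 + d0, fun x => min (lam x)
    (c0 * (Nat.log 2 (x.length + 2) + 1)), LF.min hlam (LF.mul (LF.const c0) hlog)⟩
  have hMc : M.Bounded (fun n => (n + 2) ^ c.c) (fun n => c.c * Nat.log 2 (n + 2)) := hM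
  have hla' : ∀ x, (c.la x : ℝ) ≤ la x.length := by
    intro x
    refine le_trans ?_ (hla x)
    have : c.la x ≤ lam x := min_le_left _ _
    exact_mod_cast this
  obtain ⟨c1, hc1, hc2, hc3⟩ := space_bounds M c hla'
  obtain ⟨C, hC1, hC⟩ := Sel.sh_le (M := M) (c := c0)
  have hhe : ∀ x, hh M c x = (4 * c0 + 2 * e + 7 + d0) * Sel.sh M c0 x := by
    intro x
    show (4 * c0 + 2 * e + 6 + d0 + 1) * Sel.sh M c0 x = _
    congr 1
    omega
  obtain ⟨C3, hC3⟩ : ∃ C3 : ℕ, C3 = cB * ((4 * c0 + 2 * e + 7 + d0) * C) + 2 := ⟨_, rfl⟩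
  -- the logarithm of the bound of the values
  have hlogB : ∀ x, Nat.log 2 (x.length + Bx M c x + 2) + 1 ≤ C3 * Nat.log 2 (x.length + 2) := by
    intro x
    have h1 := len_le (M := M) (c := c) x
    have h2 : 2 ^ hh M c x ≤ Bx M c x := PP.pow_mono (by simp only [cB]; omega)
    have h3 : x.length + Bx M c x + 2 ≤ 2 ^ (cB * hh M c x + 1) := by
      rw [pow_succ]
      unfold Bx at h2 ⊢
      omega
    have h4 : Nat.log 2 (x.length + Bx M c x + 2) ≤ cB * hh M c x + 1 := by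
      have := Nat.log_mono_right (b := 2) h3
      rwa [Nat.log_pow (by norm_num)] at this
    have h5 : hh M c x ≤ (4 * c0 + 2 * e + 7 + d0) * C * Nat.log 2 (x.length + 2) := by
      rw [hhe, mul_assoc]
      exact Nat.mul_le_mul_left _ (hC x)
    have h6 := Sel.Ln_pos x
    have h7 : Sel.Ln x = Nat.log 2 (x.length + 2) := rfl
    rw [h7] at h6
    have h8 : cB * hh M c x ≤ cB * ((4 * c0 + 2 * e + 7 + d0) * C) * Nat.log 2 (x.length + 2) := by
      rw [mul_assoc]
      exact Nat.mul_le_mul_left _ h5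
    rw [hC3, add_mul]
    omega
  have hspl0 : ∀ n, 0 ≤ spl la n := fun n => spl_nonneg n (hla0 n)
  have hS0 : ∀ n, 0 ≤ S n := fun n => (hspl0 n).trans (hS n)
  obtain ⟨c4, hc4⟩ : ∃ c4 : ℕ, c4 = c1 + C3 * (c2 + 1) := ⟨_, rfl⟩
  have hmono : ∀ (y : ℝ) (n : ℕ), y ≤ c1 * spl la n + c1 → y ≤ c4 * S n + c4 := by
    intro y n hy
    have h1 : (c1 : ℝ) ≤ c4 := by
      have : c1 ≤ c4 := by rw [hc4]; exact Nat.le_add_right _ _
      exact_mod_cast this
    have h2 : (0 : ℝ) ≤ c1 := Nat.cast_nonneg _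
    have h3 := mul_le_mul_of_nonneg_left (hS n) h2
    have h4 := mul_le_mul_of_nonneg_right h1 (hS0 n)
    linarith
  have hS4 : ∀ x, (((κ x + 1) * (Nat.log 2 (x.length + Bx M c x + 2) + 1) : ℕ) : ℝ) ≤
      c4 * S x.length + c4 := by
    intro x
    have h1 : (κ x + 1) * (Nat.log 2 (x.length + Bx M c x + 2) + 1) ≤
        C3 * (κ x * Nat.log 2 (x.length + 2)) + C3 * Nat.log 2 (x.length + 2) := by
      calc _ ≤ (κ x + 1) * (C3 * Nat.log 2 (x.length + 2)) := Nat.mul_le_mul_left _ (hlogB x)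
        _ = _ := by ring
    have h2 : (((κ x + 1) * (Nat.log 2 (x.length + Bx M c x + 2) + 1) : ℕ) : ℝ) ≤
        C3 * ((κ x * Nat.log 2 (x.length + 2) : ℕ) : ℝ) + C3 * (Nat.log 2 (x.length + 2) : ℝ) := by
      exact_mod_cast h1
    have h3 := hκS x
    have h4 : (Nat.log 2 (x.length + 2) : ℝ) ≤ S x.length := by
      have h5 := natLog_le_logb (x.length + 2) (by omega)
      push_cast at h5
      exact h5.trans ((ell_le_spl x.length (hla0 _)).trans (hS _))
    have h6 : (0 : ℝ) ≤ C3 := Nat.cast_nonneg _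
    have h7 := mul_le_mul_of_nonneg_left h3 h6
    have h8 := mul_le_mul_of_nonneg_left h4 h6
    have h9 : (0 : ℝ) ≤ c1 * S x.length + c1 :=
      add_nonneg (mul_nonneg (Nat.cast_nonneg _) (hS0 x.length)) (Nat.cast_nonneg _)
    have h10 : (c4 : ℝ) = c1 + C3 * (c2 + 1) := by
      rw [hc4]
      push_cast
      ring
    rw [h10]
    have h11 : (C3 : ℝ) * (c2 * S x.length + c2) = C3 * c2 * S x.length + C3 * c2 := by ring
    have h12 : ((c1 : ℝ) + C3 * (c2 + 1)) * S x.length + (c1 + C3 * (c2 + 1)) =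
        (c1 * S x.length + c1) + (C3 * c2 * S x.length + C3 * c2) + C3 * S x.length + C3 := by ring
    rw [h12]
    rw [h11] at h7
    linarith only [h2, h7, h8, h9, h6]
  have hκB : ∀ x, κ x ≤ Bx M c x := by
    intro x
    refine (hκ0 x).trans ?_
    calc (x.length + 2) ^ d0 ≤ (2 ^ Sel.sh M c0 x) ^ d0 :=
          Nat.pow_le_pow_left (Sel.n_lt (M := M) (c := c0) x).le d0
      _ = 2 ^ (Sel.sh M c0 x * d0) := by rw [← pow_mul]
      _ ≤ Bx M c x := by
        apply PP.pow_mono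
        rw [hhe]
        have h1 : Sel.sh M c0 x * d0 ≤ (4 * c0 + 2 * e + 7 + d0) * Sel.sh M c0 x := by
          rw [mul_comm]
          exact Nat.mul_le_mul_right _ (by omega)
        exact h1.trans (Nat.le_mul_of_pos_left _ (by norm_num [cB]))
  have hN0B : ∀ x, Sel.sN M c.c x ≤ Bx M c x := by
    intro x
    have h1 := n_le (M := M) (c := c) x
    rw [parx_n] at h1
    have h2 : 2 ^ hh M c x ≤ Bx M c x := PP.pow_mono (by simp only [cB]; omega)
    omega
  have hs0N : ∀ x, stx M c x < Sel.sN M c.c x := by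
    intro x
    have h1 := (CT.chain_ok hMc x (n_ge (M := M) (c := c) x)).start_lt
    rw [parx_n] at h1
    unfold stx
    omega
  obtain ⟨A, D, e', hD, hA⟩ := assembleS (p := progX M c) progX_ok (B := Bx M c)
    (w := fun x => (parx M c x).q) (L := fun x => (parx M c x).L) (top := topx M c)
    (thr := thrS M c) (NS := fun x => nSd (parx M c x)) (N0 := Sel.sN M c.c) (s0 := stx M c)
    (κ := κ) (st := fun x j sd => statN (parx M c x) sd j) (qy := qyS)
    lfx_B ((lfx_q (M := M) (c := c)).congr (fun x a => by rw [parx_q]))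
    ((lfx_L (M := M) (c := c)).congr (fun x a => by rw [parx_L])) lfx_top lfx_thrS Sel.lfx_N
    (CT.lfx_start M c.c) hκ (lf_stat (LF.proj 1) (LF.proj 0))
    (Z.lf_npair (LF.const 0) (Z.lf_npair (LF.proj 0) (LF.proj 1))) lf_nSd
    (fun x => Nat.one_le_iff_ne_zero.2 (NeZero.ne _)) top_le hκB hN0B hs0N
    (fun x v hv u hu => qyS_le x hv hu) hS0 (c1 := c4)
    (fun x => hmono _ _ (hc1 x)) (fun x => hmono _ _ (hc2 x)) (fun x => hmono _ _ (hc3 x)) hS4
  refine ⟨A, D, e', (4 * c0 + 2 * e + 7 + d0) * C + 1, hD, fun x => ?_⟩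
  -- the numbers
  obtain ⟨T, hTd⟩ : ∃ T, T = min (2 ^ lam x) (Sel.sT c0 x) := ⟨_, rfl⟩
  obtain ⟨W, hWd⟩ : ∃ W, W = 2 * Sel.sN M c.c x * (T + 1) * (x.length + 2) ^ e := ⟨_, rfl⟩
  have hsh5 := Sel.five_le_h (M := M) (c := c0) x
  have hlsh := Sel.log_n_le (M := M) (c := c0) x
  have hsT : Sel.sT c0 x ≤ 2 ^ Sel.sh M c0 x := T_le (M := M) (c := c) x
  have hlax : lax M c x ≤ 2 * c0 * Sel.sh M c0 x := by
    have h1 : lax M c x ≤ c0 * (Nat.log 2 (x.length + 2) + 1) :=
      (min_le_left _ _).trans (min_le_right _ _)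
    refine h1.trans ?_
    calc c0 * (Nat.log 2 (x.length + 2) + 1) ≤ c0 * (2 * Sel.sh M c0 x) :=
          Nat.mul_le_mul_left _ (by omega)
      _ = _ := by ring
  have hTlax : T ≤ 2 ^ lax M c x := by
    have e1 : lax M c x = min (min (lam x) (c0 * (Nat.log 2 (x.length + 2) + 1))) (hh M c x) := rfl
    rw [e1]
    rcases min_choice (min (lam x) (c0 * (Nat.log 2 (x.length + 2) + 1))) (hh M c x) with h | h
    · rw [h]
      rcases min_choice (lam x) (c0 * (Nat.log 2 (x.length + 2) + 1)) with h' | h'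
      · rw [h', hTd]; exact min_le_left _ _
      · rw [h', hTd]; exact (min_le_right _ _).trans (T_le_log c0 x)
    · rw [h, hTd]
      exact (min_le_right _ _).trans (hsT.trans (pow_sh_le (M := M) (c := c) x))
  have hNpos : 1 ≤ Sel.sN M c.c x := by
    have := Sel.sN_pos (M := M) (c := c.c) x
    omega
  have hN2 : Sel.sN M c.c x ≤ 2 ^ Sel.sh M c0 x := (Sel.N_lt (M := M) (c := c0) x).le
  have hn2 : x.length + 2 ≤ 2 ^ Sel.sh M c0 x := (Sel.n_lt (M := M) (c := c0) x).le
  have hne : 1 ≤ (x.length + 2) ^ e := Nat.one_le_pow _ _ (by omega)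
  have hG1 : 1 ≤ 2 * Sel.sN M c.c x * (T + 1) := Nat.mul_pos (by omega) (Nat.succ_pos _)
  have hW1 : 1 ≤ W := by rw [hWd]; exact Nat.mul_pos hG1 hne
  have hWG : 2 * Sel.sN M c.c x * (T + 1) ≤ W := by
    rw [hWd]; exact Nat.le_mul_of_pos_right _ hne
  have hWn : (x.length + 2) ^ e ≤ W := by
    rw [hWd]; exact Nat.le_mul_of_pos_left _ hG1
  have hT1 : T + 1 ≤ 2 ^ (Sel.sh M c0 x + 1) := by
    have h1 : T ≤ 2 ^ Sel.sh M c0 x := by rw [hTd]; exact (min_le_right _ _).trans hsT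
    have h2 : 1 ≤ 2 ^ Sel.sh M c0 x := Nat.one_le_two_pow
    rw [pow_succ]
    omega
  have hWle : W ≤ 2 ^ (2 + (2 + e) * Sel.sh M c0 x) := by
    rw [hWd]
    calc 2 * Sel.sN M c.c x * (T + 1) * (x.length + 2) ^ e
        ≤ 2 * 2 ^ Sel.sh M c0 x * 2 ^ (Sel.sh M c0 x + 1) * (2 ^ Sel.sh M c0 x) ^ e := by
          exact Nat.mul_le_mul (Nat.mul_le_mul (Nat.mul_le_mul_left _ hN2) hT1)
            (Nat.pow_le_pow_left hn2 e)
      _ = 2 ^ (2 + (2 + e) * Sel.sh M c0 x) := by
          rw [← pow_mul, ← pow_succ', ← pow_add, ← pow_add]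
          congr 1
          ring
  have cn : Cnd M c T W x := by
    refine ⟨hW1, ?_, ?_⟩
    · apply T_ok
      calc 2 * T ≤ 2 ^ 5 * 2 ^ lax M c x := Nat.mul_le_mul (by norm_num) hTlax
        _ = 2 ^ (lax M c x + 5) := by rw [← pow_add, add_comm]
    · have h1 := rkK_le (M := M) (c := c) x
      calc 8 * 2 ^ ((parx M c x).rk * (parx M c x).K) * W ^ 2
          ≤ 2 ^ 3 * 2 ^ (2 * lax M c x + 6) * (2 ^ (2 + (2 + e) * Sel.sh M c0 x)) ^ 2 := by
            refine Nat.mul_le_mul (Nat.mul_le_mul (by norm_num) (PP.pow_mono h1)) ?_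
            exact Nat.pow_le_pow_left hWle 2
        _ = 2 ^ (3 + (2 * lax M c x + 6) + (2 + (2 + e) * Sel.sh M c0 x) * 2) := by
            rw [← pow_mul, ← pow_add, ← pow_add]
        _ ≤ 2 ^ hh M c x := by
            apply PP.pow_mono
            rw [hhe]
            have h2 : (4 * c0 + 2 * e + 7 + d0) * Sel.sh M c0 x =
              2 * (2 * c0 * Sel.sh M c0 x) + 2 * ((2 + e) * Sel.sh M c0 x) +
                3 * Sel.sh M c0 x + d0 * Sel.sh M c0 x := by ring
            rw [h2]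
            omega
  -- the probability
  have hch := CT.chain_ok hMc x (n_ge (M := M) (c := c) x)
  have hpr := CT.chain_prob hMc x
  have hcs : csx M c x = M.cs x (Sel.sW M c.c x) (Sel.sT c.c x) := rfl
  have hst : stx M c x = M.startN x (Sel.sW M c.c x) (Sel.sT c.c x) := rfl
  have hpT : hit (csx M c x) 0 T (stx M c x) =
      M.probAt x true ((x.length + 2) ^ c0) 0 M.init := by
    have h1 := CT.chain_few hMc x (fun v => hcoin x v) 0
    rw [hpr, CT.hitR_eq, ← hcs, ← hst] at h1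
    rw [hTd]
    exact_mod_cast h1
  set pr : ℚ := M.probAt x true ((x.length + 2) ^ c0) 0 M.init with hprd
  obtain ⟨n, hn⟩ : ∃ n : ℚ, n = (x.length : ℚ) + 2 := ⟨_, rfl⟩
  have hn1 : 1 ≤ n := by
    have : (0 : ℚ) ≤ (x.length : ℚ) := Nat.cast_nonneg _
    linarith
  rw [← hn]
  have key : ∀ bb : Prop,
      (bb → 1 / n ^ (e * 2 ^ κ x) ≤ pr) →
      (¬ bb → pr < 1 / n ^ (((4 * c0 + 2 * e + 7 + d0) * C + 1) * 2 ^ κ x)) →
      ∀ sd, GoodSd (parx M c x) (theSem (parx M c x)) (theTSem (parx M c x)) (csx M c x) sd →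
      CT.Restores (CT.envS (Bx M c) (fun x => (parx M c x).q) (fun x => (parx M c x).L)
        (fun x j sd => statN (parx M c x) sd j) x sd) (progX M c) (topx M c x) ∧
      (rch (Sel.sN M c.c x) (fun v u => v = u ∨ thrS M c x < CT.val (CT.envS (Bx M c)
        (fun x => (parx M c x).q) (fun x => (parx M c x).L)
        (fun x j sd => statN (parx M c x) sd j) x sd) (progX M c)
        (topx M c x) (qyS v u) (fun _ => 0)) (κ x) (stx M c x) 0 ↔ bb) := by
    intro bb hP1 hP2 sd hsd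
    obtain ⟨hr, hv⟩ := good_all hMc x sd hsd
    refine ⟨hr, ?_⟩
    have hcg : (rch (Sel.sN M c.c x) (fun v u => v = u ∨ thrS M c x < CT.val (CT.envS (Bx M c)
        (fun x => (parx M c x).q) (fun x => (parx M c x).L)
        (fun x j sd => statN (parx M c x) sd j) x sd) (progX M c)
        (topx M c x) (qyS v u) (fun _ => 0)) (κ x) (stx M c x) 0 ↔
        rch (Sel.sN M c.c x) (EdS M c x sd) (κ x) (stx M c x) 0) := by
      refine rch_congr (fun v hv' u hu' => ?_) (κ x) (stx M c x) (hs0N x) 0 (by omega)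
      have h1 := hv v (by rw [parx_n]; omega) u (by rw [parx_n]; omega)
      have h2 : CT.val (CT.envS (Bx M c) (fun x => (parx M c x).q)
        (fun x => (parx M c x).L) (fun x j sd => statN (parx M c x) sd j) x sd) (progX M c)
        (topx M c x) (qyS v u) (fun _ => 0) = (data (parx M c x).toPar (theSem (parx M c x))
          (csx M c x) (oSd (parx M c x) sd) (parx M c x).S).A v u := h1
      rw [h2]
      exact Iff.rfl
    rw [hcg]
    by_cases hx : bb
    · refine iff_of_true ?_ hx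
      refine rch_complete hMc x sd cn hWG (hs0N x) ?_
      rw [hpT]
      refine le_trans ?_ (hP1 hx)
      have hW0 : (0 : ℚ) < W := by exact_mod_cast hW1
      have hWnq : n ^ e ≤ (W : ℚ) := by
        rw [hn]
        exact_mod_cast hWn
      have h2 : 1 / (W : ℚ) ≤ 1 := by
        rw [div_le_one hW0]
        exact_mod_cast hW1
      calc (1 / (W : ℚ)) ^ (2 ^ κ x + 1) ≤ (1 / (W : ℚ)) ^ (2 ^ κ x) :=
            pow_le_pow_of_le_one (by positivity) h2 (Nat.le_succ _)
        _ ≤ (1 / n ^ e) ^ (2 ^ κ x) :=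
            pow_le_pow_left₀ (by positivity) (one_div_le_one_div_of_le (by positivity) hWnq) _
        _ = 1 / n ^ (e * 2 ^ κ x) := by rw [one_div_pow, ← pow_mul]
    · refine iff_of_false (fun h => ?_) hx
      obtain ⟨t, ht⟩ := rch_sound hMc x sd cn (hs0N x) (by omega) h
      have h1 := hP2 hx
      have h2 := ht.trans (hit_le_T hMc x t)
      have h3 : 1 / n ^ (((4 * c0 + 2 * e + 7 + d0) * C + 1) * 2 ^ κ x) ≤
          (1 / (2 : ℚ) ^ (hh M c x + 1)) ^ 2 ^ κ x := by
        rw [pow_mul, one_div_pow]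
        refine one_div_le_one_div_of_le (by positivity) (pow_le_pow_left₀ (by positivity) ?_ _)
        have h4 : hh M c x + 1 ≤ Nat.log 2 (x.length + 2) * ((4 * c0 + 2 * e + 7 + d0) * C + 1) := by
          have h5 := Sel.Ln_pos x
          have h7 : Sel.Ln x = Nat.log 2 (x.length + 2) := rfl
          rw [h7] at h5
          have h8 : hh M c x ≤ (4 * c0 + 2 * e + 7 + d0) * C * Nat.log 2 (x.length + 2) := by
            rw [hhe, mul_assoc]
            exact Nat.mul_le_mul_left _ (hC x)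
          rw [mul_comm (Nat.log 2 (x.length + 2)), add_mul]
          omega
        have h6 : 2 ^ (hh M c x + 1) ≤
            (x.length + 2) ^ ((4 * c0 + 2 * e + 7 + d0) * C + 1) := by
          calc 2 ^ (hh M c x + 1)
              ≤ 2 ^ (Nat.log 2 (x.length + 2) * ((4 * c0 + 2 * e + 7 + d0) * C + 1)) :=
                PP.pow_mono h4
            _ = (2 ^ Nat.log 2 (x.length + 2)) ^ ((4 * c0 + 2 * e + 7 + d0) * C + 1) := by
                rw [pow_mul]
            _ ≤ _ := Nat.pow_le_pow_left (Nat.pow_log_le_self 2 (by omega)) _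
        rw [hn]
        exact_mod_cast h6
      exact absurd (h3.trans h2) (not_le.2 h1)
  have h4 := hcardX (M := M) (c := c) x
  have h5 := card_filter_add_card_filter_not (s := range (nSd (parx M c x)))
    (fun sd => GoodSd (parx M c x) (theSem (parx M c x)) (theTSem (parx M c x)) (csx M c x) sd)
  rw [card_range] at h5
  have hnpos : 0 < nSd (parx M c x) := by
    unfold nSd
    exact Nat.mul_pos (Nat.pow_pos (D_pos' x)) (Nat.pow_pos (Q_pos' x))
  have fin : ∀ bb : Prop,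
      (bb → 1 / n ^ (e * 2 ^ κ x) ≤ pr) →
      (¬ bb → pr < 1 / n ^ (((4 * c0 + 2 * e + 7 + d0) * C + 1) * 2 ^ κ x)) →
      (x ∈ A ↔ bb) := by
    intro bb hP1 hP2
    refine hA x bb ?_
    have h6 := card_le_card (s := (range (nSd (parx M c x))).filter fun sd =>
        GoodSd (parx M c x) (theSem (parx M c x)) (theTSem (parx M c x)) (csx M c x) sd)
      (t := (range (nSd (parx M c x))).filter fun s => CT.Restores (CT.envS (Bx M c)
        (fun x => (parx M c x).q) (fun x => (parx M c x).L)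
        (fun x j sd => statN (parx M c x) sd j) x s) (progX M c) (topx M c x) ∧
      (rch (Sel.sN M c.c x) (fun v u => v = u ∨ thrS M c x < CT.val (CT.envS (Bx M c)
        (fun x => (parx M c x).q) (fun x => (parx M c x).L)
        (fun x j sd => statN (parx M c x) sd j) x s) (progX M c)
        (topx M c x) (qyS v u) (fun _ => 0)) (κ x) (stx M c x) 0 ↔ bb)) (fun sd hsd => by
        rw [mem_filter] at hsd ⊢
        exact ⟨hsd.1, key bb hP1 hP2 sd hsd.2⟩)
    have h7 : nSd (parx M c x) <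
        2 * ((range (nSd (parx M c x))).filter fun sd =>
        GoodSd (parx M c x) (theSem (parx M c x)) (theTSem (parx M c x)) (csx M c x) sd).card := by
      omega
    exact h7.trans_le (Nat.mul_le_mul_left 2 h6)
  exact ⟨fun h => (fin True (fun _ => h) (fun h' => absurd trivial h')).2 trivial,
    fun h hx => (fin False (fun h' => h'.elim) (fun _ => h)).1 hx⟩

end Vale.Agent.P313.H947
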