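import Vale.Agent.P313.H947.Mid2
import Vale.Agent.P313.H947.Asm

/-!
Paths with weights as paths in the product with the budgets.
-/

namespace Vale.Agent.P313.H947

open Finset SV

/-- An edge of weight at most `m`. -/
def Qe (thr H : ℕ) (g : ℕ → ℕ → ℕ) (v u m : ℕ) : Prop := v = u ∨ thr < g v u * min (2 ^ m) H

theorem Qe_mono {thr H : ℕ} {g : ℕ → ℕ → ℕ} {v u m m' : ℕ} (h : m ≤ m') (h1 : Qe thr H g v u m) :
    Qe thr H g v u m' := by
  rcases h1 with h1 | h1
  · exact Or.inl h1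
  · refine Or.inr (lt_of_lt_of_le h1 (Nat.mul_le_mul_left _ ?_))
    exact min_le_min (Nat.pow_le_pow_right (by norm_num) h) le_rfl

open Classical in
/-- The weight of an edge. -/
noncomputable def wtQ (thr H cap : ℕ) (g : ℕ → ℕ → ℕ) (v u : ℕ) : ℕ :=
  if h : ∃ m, Qe thr H g v u m then Nat.find h else cap + 1

theorem wtQ_le {thr H cap : ℕ} {g : ℕ → ℕ → ℕ} {v u m : ℕ} (hm : m ≤ cap) :
    wtQ thr H cap g v u ≤ m ↔ Qe thr H g v u m := by
  classical
  unfold wtQ
  split_ifs with h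
  · constructor
    · intro h1
      exact Qe_mono h1 (Nat.find_spec h)
    · intro h1
      exact Nat.find_min' h h1
  · constructor
    · intro h1; omega
    · intro h1; exact absurd ⟨m, h1⟩ h

theorem wtQ_le' {thr H cap : ℕ} {g : ℕ → ℕ → ℕ} {v u m : ℕ} (h1 : Qe thr H g v u m) :
    wtQ thr H cap g v u ≤ m := by
  classical
  unfold wtQ
  rw [dif_pos ⟨m, h1⟩]
  exact Nat.find_min' _ h1

/-- The edges of the product. -/
def EP (N thr H : ℕ) (g : ℕ → ℕ → ℕ) (i j : ℕ) : Prop :=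
  i / N ≤ j / N ∧ Qe thr H g (i % N) (j % N) (j / N - i / N)

theorem div_idx {N v a : ℕ} (hv : v < N) : (v + N * a) / N = a := by
  rw [Nat.add_mul_div_left _ _ (by omega), Nat.div_eq_of_lt hv, Nat.zero_add]

theorem mod_idx {N v a : ℕ} (hv : v < N) : (v + N * a) % N = v := by
  rw [Nat.add_mul_mod_self_left, Nat.mod_eq_of_lt hv]

theorem idx_lt {N v a cap : ℕ} (hv : v < N) (ha : a ≤ cap) : v + N * a < N * (cap + 1) := by
  calc v + N * a < N + N * a := by omega
    _ = N * (a + 1) := by ring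
    _ ≤ N * (cap + 1) := Nat.mul_le_mul_left _ (by omega)

/-- THE PRODUCT. -/
theorem rch_prod {N thr H cap : ℕ} {g : ℕ → ℕ → ℕ} : ∀ (i : ℕ), ∀ v < N, ∀ u < N, ∀ a ≤ cap,
    ∀ b ≤ cap, (rch (N * (cap + 1)) (EP N thr H g) i (v + N * a) (u + N * b) ↔
      a ≤ b ∧ rchm N (wtQ thr H cap g) i v u (b - a)) := by
  intro i
  induction i with
  | zero =>
    intro v hv u hu a ha b hb
    show EP N thr H g (v + N * a) (u + N * b) ↔ a ≤ b ∧ wtQ thr H cap g v u ≤ b - a
    unfold EP
    rw [div_idx hv, div_idx hu, mod_idx hv, mod_idx hu, wtQ_le (by omega)]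
  | succ i ih =>
    intro v hv u hu a ha b hb
    constructor
    · rintro ⟨w', hw', h1, h2⟩
      have hN : 0 < N := by omega
      have hw : w' % N < N := Nat.mod_lt _ hN
      have hc : w' / N ≤ cap := by
        have := Nat.div_lt_of_lt_mul hw'
        omega
      have e : w' % N + N * (w' / N) = w' := Nat.mod_add_div _ _
      rw [← e] at h1 h2
      obtain ⟨g1, g2⟩ := (ih v hv _ hw a ha _ hc).1 h1
      obtain ⟨g3, g4⟩ := (ih _ hw u hu _ hc b hb).1 h2
      exact ⟨g1.trans g3, w' % N, hw, _, _, by omega, g2, g4⟩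
    · rintro ⟨hab, w, hw, m1, m2, h0, h1, h2⟩
      refine ⟨w + N * (a + m1), idx_lt hw (by omega), ?_, ?_⟩
      · refine (ih v hv w hw a ha _ (by omega)).2 ⟨by omega, ?_⟩
        rwa [Nat.add_sub_cancel_left]
      · exact (ih w hw u hu _ (by omega) b hb).2 ⟨by omega, rchm_mono (by omega) h2⟩

/-- The indicator of the edges of the product. -/
noncomputable def edT (N thr H : ℕ) (g : ℕ → ℕ → ℕ) (i j : ℕ) : ℕ :=
  if i / N ≤ j / N then (if i % N = j % N then 1 else
    ind (thr < g (i % N) (j % N) * min (2 ^ (j / N - i / N)) H)) else 0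

end Vale.Agent.P313.H947
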