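import Vale.Agent.P313.H947.Val
import Vale.Agent.P313.H947.Prod

/-!
The entries of the last canonical matrix for a good seed, with weights.
-/

namespace Vale.Agent.P313.H947

open Finset BP H126 H427L ZL H644
open H427 (statN)

variable {M : RTM} {c : Cf}

/-- The threshold. -/
noncomputable def thrT (M : RTM) (c : Cf) (x : List Bool) : ℕ :=
  2 * (parx M c x).q ^ (parx M c x).b

theorem lfx_thrT : Sel.LFx (thrT M c) :=
  (LF.const 2).mul ((lfx_powb (M := M) (c := c)).congr (fun x a => by simp only [parx, thePar]))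

/-- The matrix. -/
noncomputable def gA (M : RTM) (c : Cf) (x : List Bool) (sd : ℕ) (v u : ℕ) : ℕ :=
  (data (parx M c x).toPar (theSem (parx M c x)) (csx M c x)
    (oSd (parx M c x) sd) (parx M c x).S).A v u

/-- Soundness of an edge. -/
theorem edgeT_sound (hM : M.Bounded (fun n => (n + 2) ^ c.c) (fun n => c.c * Nat.log 2 (n + 2)))
    (x : List Bool) (sd : ℕ) {v u m : ℕ}
    (hv : v + 1 < (parx M c x).n) (hu : u + 1 < (parx M c x).n)
    (h : thrT M c x < gA M c x sd v u * min (2 ^ m) (2 ^ hh M c x)) :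
    ∃ t, 1 ≤ (2 : ℝ) ^ m * CT.hitR (csx M c x) u (t + 1) v := by
  have hoffs : H974.Offs (parx M c x).toPar (oSd (parx M c x) sd) :=
    fun s i => (oSd_lt (D_pos' x) sd s i).le
  obtain ⟨h1, h2⟩ := entry_lower (numOK x) (semOKx x) (o := oSd (parx M c x) sd) hoffs
    (cs := csx M c x) (csxOK hM x) (Sn := (parx M c x).S) (E := 2 ^ (hh M c x + 5)) (by positivity)
    (runE x le_rfl) hv hu
  have hg : (data (parx M c x).toPar (theSem (parx M c x)) (csx M c x)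
      (oSd (parx M c x) sd) (parx M c x).S).A v u = gA M c x sd v u := rfl
  rw [hg] at h2
  obtain ⟨A, hA⟩ : ∃ A, A = gA M c x sd v u := ⟨_, rfl⟩
  rw [← hA] at h2 h
  have hq0 : 0 < (parx M c x).q ^ (parx M c x).b := Nat.pow_pos (q_prime x).pos
  obtain ⟨Q, hQ⟩ : ∃ Q : ℝ, Q = ((parx M c x).q : ℝ) ^ (parx M c x).b := ⟨_, rfl⟩
  have hQ0 : 0 < Q := by
    rw [hQ]
    exact_mod_cast hq0
  rw [← hQ] at h2
  obtain ⟨μ, hμ⟩ : ∃ μ : ℕ, μ = min m (hh M c x) := ⟨_, rfl⟩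
  have hmin : min (2 ^ m) (2 ^ hh M c x) = 2 ^ μ := by
    rw [hμ]
    rcases le_total m (hh M c x) with h3 | h3
    · rw [min_eq_left h3, min_eq_left (Nat.pow_le_pow_right (by norm_num) h3)]
    · rw [min_eq_right h3, min_eq_right (Nat.pow_le_pow_right (by norm_num) h3)]
  rw [hmin] at h
  have h' : 2 * Q < A * 2 ^ μ := by
    rw [hQ]
    unfold thrT at h
    exact_mod_cast h
  have hμh : (2 : ℝ) ^ μ ≤ 2 ^ hh M c x :=
    pow_le_pow_right₀ (by norm_num) (by rw [hμ]; exact min_le_right _ _)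
  have hμm : (2 : ℝ) ^ μ ≤ 2 ^ m :=
    pow_le_pow_right₀ (by norm_num) (by rw [hμ]; exact min_le_left _ _)
  have hμ0 : (0 : ℝ) < 2 ^ μ := by positivity
  have hE : (1 : ℝ) / ((2 ^ (hh M c x + 5) : ℕ) : ℝ) ≤ 1 / 2 ^ μ := by
    push_cast
    apply one_div_le_one_div_of_le hμ0
    refine hμh.trans (pow_le_pow_right₀ (by norm_num) (by omega))
  obtain ⟨t, ht⟩ := h2 (1 / 2 ^ μ) (by
    have h3 : 2 * (1 / 2 ^ μ) < (A : ℝ) / Q := by
      rw [mul_one_div, div_lt_div_iff₀ hμ0 hQ0]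
      exact h'
    linarith)
  refine ⟨t, ?_⟩
  rw [Z.hitR_eq] at ht
  have h4 : 0 ≤ CT.hitR (csx M c x) u (t + 1) v := le_trans (by positivity) ht
  calc (1 : ℝ) = 2 ^ μ * (1 / 2 ^ μ) := by field_simp
    _ ≤ 2 ^ μ * CT.hitR (csx M c x) u (t + 1) v := mul_le_mul_of_nonneg_left ht hμ0.le
    _ ≤ 2 ^ m * CT.hitR (csx M c x) u (t + 1) v := mul_le_mul_of_nonneg_right hμm h4

/-- Completeness of an edge: the least weight is not too large. -/
theorem edgeT_complete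
    (hM : M.Bounded (fun n => (n + 2) ^ c.c) (fun n => c.c * Nat.log 2 (n + 2)))
    (x : List Bool) (sd : ℕ) {T W : ℕ} (cn : Cnd M c T W x) {v u : ℕ}
    (hv : v + 1 < (parx M c x).n) (hu : u + 1 < (parx M c x).n) {t : ℕ} (ht : t + 1 ≤ T)
    (hh1 : (1 / (W : ℝ)) ^ 2 ≤ CT.hitR (csx M c x) u (t + 1) v) :
    ∃ m ≤ hh M c x, thrT M c x < gA M c x sd v u * 2 ^ m ∧
      CT.hitR (csx M c x) u (t + 1) v * 2 ^ m ≤
        16 * 2 ^ ((parx M c x).rk * (parx M c x).K) := by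
  classical
  have hoffs : H974.Offs (parx M c x).toPar (oSd (parx M c x) sd) :=
    fun s i => (oSd_lt (D_pos' x) sd s i).le
  obtain ⟨h1, -⟩ := entry_lower (numOK x) (semOKx x) (o := oSd (parx M c x) sd) hoffs
    (cs := csx M c x) (csxOK hM x) (Sn := (parx M c x).S) (E := 2 ^ (hh M c x + 5)) (by positivity)
    (runE x le_rfl) hv hu
  have hg : (data (parx M c x).toPar (theSem (parx M c x)) (csx M c x)
      (oSd (parx M c x) sd) (parx M c x).S).A v u = gA M c x sd v u := rfl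
  rw [hg] at h1
  obtain ⟨A, hA⟩ : ∃ A, A = gA M c x sd v u := ⟨_, rfl⟩
  rw [← hA] at h1 ⊢
  have hq0 : 0 < (parx M c x).q ^ (parx M c x).b := Nat.pow_pos (q_prime x).pos
  obtain ⟨Q, hQ⟩ : ∃ Q : ℝ, Q = ((parx M c x).q : ℝ) ^ (parx M c x).b := ⟨_, rfl⟩
  have hQ0 : 0 < Q := by
    rw [hQ]
    exact_mod_cast hq0
  rw [← hQ] at h1
  obtain ⟨H, hH⟩ : ∃ H : ℝ, H = 2 ^ hh M c x := ⟨_, rfl⟩
  have hH0 : 0 < H := by rw [hH]; positivity
  have hE : (1 : ℝ) / ((2 ^ (hh M c x + 5) : ℕ) : ℝ) = 1 / H / 32 := by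
    push_cast
    rw [pow_add, ← hH]
    field_simp
    norm_num
  rw [hE] at h1
  have hHi : 0 < 1 / H := by positivity
  have h4 := h1 t
  rw [Z.hitR_eq] at h4
  obtain ⟨P, hP⟩ : ∃ P : ℝ, P = 2 ^ ((parx M c x).rk * (parx M c x).K) := ⟨_, rfl⟩
  have hP0 : 0 < P := by rw [hP]; positivity
  have ea : (1 / 2 : ℝ) ^ ((parx M c x).rk * (parx M c x).K) = 1 / P := by
    rw [hP, one_div_pow]
  rw [ea] at h4
  have hTr : 2 * (T : ℝ) ≤ P := by
    rw [hP]
    exact_mod_cast cn.hT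
  have hWr : 8 * P * (W : ℝ) ^ 2 ≤ H := by
    rw [hP, hH]
    exact_mod_cast cn.hW
  have hW0 : (0 : ℝ) < W := by exact_mod_cast cn.W1
  have ht' : ((t : ℝ)) ≤ T := by
    have : t ≤ T := by omega
    exact_mod_cast this
  have hP1 : 1 ≤ P := by rw [hP]; exact one_le_pow₀ (by norm_num)
  have h5 : (1 : ℝ) / 2 ≤ (1 - 1 / P) ^ t := by
    have h6 := one_add_mul_le_pow (a := -(1 / P)) (by
      have : 1 / P ≤ 1 := by rw [div_le_one hP0]; exact hP1
      linarith) t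
    have e : (1 : ℝ) + -(1 / P) = 1 - 1 / P := by ring
    rw [e] at h6
    have h7 : (t : ℝ) * (1 / P) ≤ 1 / 2 := by
      rw [mul_one_div, div_le_div_iff₀ hP0 (by norm_num)]
      linarith
    linarith
  obtain ⟨y, hy⟩ : ∃ y, y = CT.hitR (csx M c x) u (t + 1) v := ⟨_, rfl⟩
  rw [← hy] at h4 hh1 ⊢
  have hy1 : y ≤ 1 := by
    have h6 := (H974.hitR_mem (csx M c x) u (t + 1) v).2
    rw [Z.hitR_eq, ← hy] at h6
    exact h6
  have hy0 : 0 < y := lt_of_lt_of_le (pow_pos (one_div_pos.2 hW0) 2) hh1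
  have hPi : 0 ≤ 1 / P := one_div_nonneg.2 hP0.le
  have h8 : 1 / P * (1 / 2) * y ≤ 1 / P * (1 - 1 / P) ^ t * y :=
    mul_le_mul_of_nonneg_right (mul_le_mul_of_nonneg_left h5 hPi) hy0.le
  have h9 : 8 * (1 / H) ≤ 1 / P * y := by
    have h10 : 8 * (1 / H) ≤ 1 / P * (1 / (W : ℝ)) ^ 2 := by
      have e : 1 / P * (1 / (W : ℝ)) ^ 2 = 1 / (P * W ^ 2) := by
        have hW0' := hW0.ne'
        have hP0' := hP0.ne'
        field_simp
      have h11 : 0 < P * (W : ℝ) ^ 2 := mul_pos hP0 (pow_pos hW0 2)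
      rw [e, mul_one_div, div_le_div_iff₀ hH0 h11]
      linarith
    exact h10.trans (mul_le_mul_of_nonneg_left hh1 hPi)
  obtain ⟨z, hz⟩ : ∃ z, z = (A : ℝ) / Q := ⟨_, rfl⟩
  rw [← hz] at h4
  have hPy : 0 < 1 / P * y := mul_pos (one_div_pos.2 hP0) hy0
  have h12 : 1 / P * y < 4 * z := by linarith only [h4, h8, h9, hPy, hHi]
  have h13 : 1 / P * y * P = y := by field_simp
  have hzA : z * Q = A := by rw [hz]; field_simp
  have hthr : ∀ m : ℕ, thrT M c x < A * 2 ^ m ↔ 2 < z * 2 ^ m := by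
    intro m
    have e1 : thrT M c x < A * 2 ^ m ↔ 2 * Q < A * 2 ^ m := by
      rw [hQ]
      unfold thrT
      exact_mod_cast Iff.rfl
    have e2 : z * Q * 2 ^ m = (z * 2 ^ m) * Q := by ring
    rw [e1, ← hzA, e2]
    exact ⟨fun h => lt_of_mul_lt_mul_right h hQ0.le, fun h => mul_lt_mul_of_pos_right h hQ0⟩
  have hexh : thrT M c x < A * 2 ^ hh M c x := by
    refine (hthr _).2 ?_
    rw [← hH]
    have h14 : 8 * (1 / H) * H < 4 * z * H := mul_lt_mul_of_pos_right (lt_of_le_of_lt h9 h12) hH0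
    have h15 : 8 * (1 / H) * H = 8 := by field_simp
    rw [h15] at h14
    linarith only [h14]
  have hex : ∃ m : ℕ, thrT M c x < A * 2 ^ m := ⟨_, hexh⟩
  refine ⟨Nat.find hex, Nat.find_min' hex hexh, Nat.find_spec hex, ?_⟩
  rw [← hP]
  rcases Nat.eq_zero_or_pos (Nat.find hex) with h0 | h0
  · rw [h0, pow_zero, mul_one]
    linarith only [hy1, hP1]
  · obtain ⟨k, hk⟩ : ∃ k, Nat.find hex = k + 1 := ⟨_, (Nat.succ_pred_eq_of_pos h0).symm⟩
    have h16 := Nat.find_min hex (m := k) (by rw [hk]; exact Nat.lt_succ_self k)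
    rw [hthr, not_lt] at h16
    rw [hk]
    have h17 : y ≤ 4 * z * P := by
      rw [← h13]
      exact mul_le_mul_of_nonneg_right h12.le hP0.le
    calc y * 2 ^ (k + 1) ≤ 4 * z * P * 2 ^ (k + 1) :=
          mul_le_mul_of_nonneg_right h17 (pow_nonneg (by norm_num) _)
      _ = (z * 2 ^ k) * (8 * P) := by rw [pow_succ]; ring
      _ ≤ 2 * (8 * P) := mul_le_mul_of_nonneg_right h16 (by linarith only [hP0])
      _ = 16 * P := by ring

end Vale.Agent.P313.H947
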