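import Vale.Agent.P313.H947.Main
import Vale.Agent.P313.H947.AsmT
import Vale.Agent.P313.H947.ValT

/-!
Small success probabilities: sharp thresholds.
-/

namespace Vale.Agent.P313.H947

open Finset BP H126 H427L ZL SV
open H427 (statN one_le_logb one_le_logb2 natLog_le_logb)
open scoped Classical

section numbers

/-- The upper bound of the weight. -/
theorem num_up {n pr : ℚ} (hn : 0 < n) (hpr : 0 ≤ pr) {r t a κ m B Lt : ℕ} (hr : 1 ≤ r)
    (ht : 1 ≤ t) {k : ℕ} (h : 1 / n ^ (a * 2 ^ κ) ≤ pr ^ r) (h1 : pr * 2 ^ m ≤ 2 ^ (B * 2 ^ k))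
    (hL : n ^ t ≤ 2 ^ Lt) : m ≤ B * 2 ^ k + Lt * a * 2 ^ κ / (r * t) := by
  have hrt : 0 < r * t := Nat.mul_pos hr ht
  have h2 : (1 : ℚ) ≤ pr ^ r * n ^ (a * 2 ^ κ) := by
    rwa [div_le_iff₀ (pow_pos hn _)] at h
  have h3 : (1 : ℚ) ≤ (pr ^ r * n ^ (a * 2 ^ κ)) ^ t := one_le_pow₀ h2
  have h4 : (pr * 2 ^ m) ^ (r * t) ≤ (2 ^ (B * 2 ^ k)) ^ (r * t) :=
    pow_le_pow_left₀ (mul_nonneg hpr (by positivity)) h1 _
  have h5 : (n ^ t) ^ (a * 2 ^ κ) ≤ (2 ^ Lt) ^ (a * 2 ^ κ) :=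
    pow_le_pow_left₀ (pow_nonneg hn.le _) hL _
  have h6 : (2 : ℚ) ^ (m * (r * t)) ≤ 2 ^ (B * 2 ^ k * (r * t) + Lt * a * 2 ^ κ) := by
    calc (2 : ℚ) ^ (m * (r * t)) = 1 * 2 ^ (m * (r * t)) := (one_mul _).symm
      _ ≤ (pr ^ r * n ^ (a * 2 ^ κ)) ^ t * 2 ^ (m * (r * t)) :=
          mul_le_mul_of_nonneg_right h3 (by positivity)
      _ = (pr * 2 ^ m) ^ (r * t) * (n ^ t) ^ (a * 2 ^ κ) := by
          rw [mul_pow, mul_pow, ← pow_mul, ← pow_mul, ← pow_mul, ← pow_mul]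
          rw [mul_comm t (a * 2 ^ κ)]
          ring
      _ ≤ (2 ^ (B * 2 ^ k)) ^ (r * t) * (2 ^ Lt) ^ (a * 2 ^ κ) :=
          mul_le_mul h4 h5 (pow_nonneg (pow_nonneg hn.le _) _) (by positivity)
      _ = 2 ^ (B * 2 ^ k * (r * t) + Lt * a * 2 ^ κ) := by
          rw [← pow_mul, ← pow_mul, ← pow_add, mul_assoc Lt]
  have h7 : m * (r * t) ≤ B * 2 ^ k * (r * t) + Lt * a * 2 ^ κ :=
    (pow_le_pow_iff_right₀ (by norm_num : (1 : ℚ) < 2)).1 h6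
  rcases le_total m (B * 2 ^ k) with h8 | h8
  · exact h8.trans (Nat.le_add_right _ _)
  · have h9 : m - B * 2 ^ k ≤ Lt * a * 2 ^ κ / (r * t) := by
      rw [Nat.le_div_iff_mul_le hrt, Nat.sub_mul]
      omega
    omega

/-- The comparison of the exponents. -/
theorem num_exp {r β a κ : ℕ} :
    β * r * (2 * a + 1) * 2 ^ (κ - 2 * r * β) + (2 * a + 1 + 1) * a * 2 ^ κ ≤
      (2 * a + 1) * ((a + 1) * 2 ^ κ + r * β) := by
  rcases le_total κ (2 * r * β) with h | h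
  · rw [Nat.sub_eq_zero_of_le h, pow_zero, mul_one]
    have h1 : 1 ≤ 2 ^ κ := Nat.one_le_two_pow
    nlinarith [Nat.mul_le_mul_left a h1]
  · obtain ⟨k, hk⟩ : ∃ k, κ = k + 2 * r * β := ⟨κ - 2 * r * β, by omega⟩
    have h1 : 2 * r * β < 2 ^ (2 * r * β) := Nat.lt_two_pow_self
    rw [hk, Nat.add_sub_cancel, pow_add]
    have h2 : 2 * r * β * 2 ^ k ≤ 2 ^ (2 * r * β) * 2 ^ k := Nat.mul_le_mul_right _ h1.le
    obtain ⟨z, hz⟩ : ∃ z, z = 2 ^ k * 2 ^ (2 * r * β) := ⟨_, rfl⟩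
    rw [← hz]
    have h3 : 2 * r * β * 2 ^ k ≤ z := by rw [hz, mul_comm (2 ^ k)]; exact h2
    have h4 := Nat.mul_le_mul_left (2 * a + 1) h3
    nlinarith [Nat.zero_le ((2 * a + 1) * (r * β))]

/-- The lower bound of the probability. -/
theorem num_dn {n pr : ℚ} (hn : 2 ≤ n) (hpr : 0 ≤ pr) {r β a κ B Lt : ℕ}
    (h : 1 ≤ 2 ^ (B * 2 ^ (κ - 2 * r * β) + Lt * a * 2 ^ κ / (r * (2 * a + 1))) * pr)
    (hB : (2 : ℚ) ^ B ≤ n ^ β) (hL : (2 : ℚ) ^ Lt ≤ 2 * n ^ (2 * a + 1)) :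
    1 / n ^ ((a + 1) * 2 ^ κ + r * β) ≤ pr ^ r := by
  have hn0 : 0 < n := by linarith
  have hn1 : 1 ≤ n := by linarith
  obtain ⟨t, ht⟩ : ∃ t, t = 2 * a + 1 := ⟨_, rfl⟩
  obtain ⟨k, hk⟩ : ∃ k, k = κ - 2 * r * β := ⟨_, rfl⟩
  have hexp := num_exp (r := r) (β := β) (a := a) (κ := κ)
  rw [← hk, ← ht] at hexp
  rw [← hk, ← ht] at h
  rw [← ht] at hL
  have h1 : (1 : ℚ) ≤ (2 ^ (B * 2 ^ k + Lt * a * 2 ^ κ / (r * t)) * pr) ^ (r * t) :=
    one_le_pow₀ h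
  have h2 : (B * 2 ^ k + Lt * a * 2 ^ κ / (r * t)) * (r * t) ≤
      B * (2 ^ k * (r * t)) + Lt * (a * 2 ^ κ) := by
    rw [add_mul]
    have := Nat.div_mul_le_self (Lt * a * 2 ^ κ) (r * t)
    have e1 : B * 2 ^ k * (r * t) = B * (2 ^ k * (r * t)) := by ring
    have e2 : Lt * a * 2 ^ κ = Lt * (a * 2 ^ κ) := by ring
    omega
  have h3 : (2 : ℚ) ^ Lt ≤ n ^ (t + 1) := by
    refine hL.trans ?_
    rw [pow_succ, mul_comm]
    exact mul_le_mul_of_nonneg_left hn (pow_nonneg hn0.le _)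
  have h4 : (1 : ℚ) ≤ (n ^ ((a + 1) * 2 ^ κ + r * β) * pr ^ r) ^ t := by
    calc (1 : ℚ) ≤ (2 ^ (B * 2 ^ k + Lt * a * 2 ^ κ / (r * t)) * pr) ^ (r * t) := h1
      _ = 2 ^ ((B * 2 ^ k + Lt * a * 2 ^ κ / (r * t)) * (r * t)) * pr ^ (r * t) := by
          rw [mul_pow, ← pow_mul]
      _ ≤ 2 ^ (B * (2 ^ k * (r * t)) + Lt * (a * 2 ^ κ)) * pr ^ (r * t) :=
          mul_le_mul_of_nonneg_right (pow_le_pow_right₀ (by norm_num) h2) (pow_nonneg hpr _)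
      _ = (2 ^ B) ^ (2 ^ k * (r * t)) * (2 ^ Lt) ^ (a * 2 ^ κ) * pr ^ (r * t) := by
          rw [pow_add, pow_mul (2 : ℚ) B, pow_mul (2 : ℚ) Lt]
      _ ≤ (n ^ β) ^ (2 ^ k * (r * t)) * (n ^ (t + 1)) ^ (a * 2 ^ κ) * pr ^ (r * t) := by
          refine mul_le_mul_of_nonneg_right ?_ (pow_nonneg hpr _)
          exact mul_le_mul (pow_le_pow_left₀ (by positivity) hB _)
            (pow_le_pow_left₀ (by positivity) h3 _) (by positivity) (by positivity)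
      _ = n ^ (β * r * t * 2 ^ k + (t + 1) * a * 2 ^ κ) * pr ^ (r * t) := by
          rw [← pow_mul, ← pow_mul, ← pow_add]
          congr 2
          ring
      _ ≤ n ^ (t * ((a + 1) * 2 ^ κ + r * β)) * pr ^ (r * t) :=
          mul_le_mul_of_nonneg_right (pow_le_pow_right₀ hn1 hexp) (pow_nonneg hpr _)
      _ = (n ^ ((a + 1) * 2 ^ κ + r * β) * pr ^ r) ^ t := by
          rw [mul_pow, ← pow_mul, ← pow_mul, mul_comm t]
  have h5 : (1 : ℚ) ≤ n ^ ((a + 1) * 2 ^ κ + r * β) * pr ^ r := by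
    by_contra h6
    push Not at h6
    have h7 := pow_lt_one₀ (mul_nonneg (pow_nonneg hn0.le _) (pow_nonneg hpr _)) h6
      (n := t) (by omega)
    linarith
  rw [div_le_iff₀ (pow_pos hn0 _), mul_comm]
  exact h5

end numbers

variable {M : RTM} {c : Cf}

/-- Completeness. -/
theorem rchm_complete
    (hM : M.Bounded (fun n => (n + 2) ^ c.c) (fun n => c.c * Nat.log 2 (n + 2)))
    (x : List Bool) (sd : ℕ) {T W cap : ℕ} (cn : Cnd M c T W x)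
    (hW : 2 * Sel.sN M c.c x * (T + 1) ≤ W) {i s : ℕ} (hs : s < Sel.sN M c.c x)
    (h : (1 / (W : ℚ)) ^ (2 ^ i + 1) ≤ hit (csx M c x) 0 T s) :
    ∃ m, rchm (Sel.sN M c.c x) (wtQ (thrT M c x) (2 ^ hh M c x) cap (gA M c x sd)) i s 0 m ∧
      hit (csx M c x) 0 T s * 2 ^ m * (Sel.sN M c.c x * (T + 1)) ≤
        (16 * 2 ^ ((parx M c x).rk * (parx M c x).K) * (Sel.sN M c.c x * (T + 1))) ^ 2 ^ i := by
  have hW1 : (1 : ℚ) ≤ W := by exact_mod_cast cn.W1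
  have hWq : 2 * (Sel.sN M c.c x : ℚ) * ((T : ℚ) + 1) ≤ W := by exact_mod_cast hW
  have hF1 : (1 : ℚ) ≤ 16 * 2 ^ ((parx M c x).rk * (parx M c x).K) := by
    have : (1 : ℚ) ≤ 2 ^ ((parx M c x).rk * (parx M c x).K) := one_le_pow₀ (by norm_num)
    linarith
  refine rchm_of_hit (closed_cs hM x) hW1 hWq (by linarith) le_rfl ?_ i s hs 0 (by omega) T
    le_rfl h
  intro v hv u hu t ht h1
  cases t with
  | zero =>
    by_cases h2 : v = u
    · have h3 : wtQ (thrT M c x) (2 ^ hh M c x) cap (gA M c x sd) v u = 0 :=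
        Nat.le_zero.1 (wtQ_le' (Or.inl h2))
      rw [h3, pow_zero, mul_one, h2, hit_self]
      exact hF1
    · exfalso
      have e : hit (csx M c x) u 0 v = 0 := by
        show (if v = u then (1 : ℚ) else 0) = 0
        rw [if_neg h2]
      rw [e] at h1
      have h3 : (0 : ℚ) < (1 / (W : ℚ)) ^ 2 := pow_pos (one_div_pos.2 (by linarith)) 2
      linarith
  | succ t =>
    obtain ⟨m, hm, h2, h3⟩ := edgeT_complete hM x sd cn (v := v) (u := u)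
      (by rw [parx_n]; omega) (by rw [parx_n]; omega) ht (by
        rw [CT.hitR_eq]
        have h2 := (Rat.cast_le (K := ℝ)).2 h1
        push_cast at h2
        exact h2)
    have h4 : wtQ (thrT M c x) (2 ^ hh M c x) cap (gA M c x sd) v u ≤ m := by
      refine wtQ_le' (Or.inr ?_)
      rw [min_eq_left (Nat.pow_le_pow_right (by norm_num) hm)]
      exact h2
    rw [CT.hitR_eq] at h3
    have h5 : hit (csx M c x) u (t + 1) v * 2 ^ m ≤
        16 * 2 ^ ((parx M c x).rk * (parx M c x).K) := by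
      rw [← Rat.cast_le (K := ℝ)]
      push_cast
      exact h3
    refine le_trans (mul_le_mul_of_nonneg_left ?_ (hit_nonneg _ _ _)) h5
    exact pow_le_pow_right₀ (by norm_num) h4

/-- Soundness. -/
theorem rchm_sound
    (hM : M.Bounded (fun n => (n + 2) ^ c.c) (fun n => c.c * Nat.log 2 (n + 2)))
    (x : List Bool) (sd : ℕ) {cap : ℕ} {i s : ℕ}
    (hs : s < Sel.sN M c.c x) (h0 : 0 < Sel.sN M c.c x)
    (h : rchm (Sel.sN M c.c x) (wtQ (thrT M c x) (2 ^ hh M c x) cap (gA M c x sd)) i s 0 cap) :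
    ∃ t, 1 ≤ 2 ^ cap * hit (csx M c x) 0 t s := by
  refine hit_of_rchm (N := Sel.sN M c.c x) (cap := cap + 1) ?_ i s hs 0 h0 cap
    (Nat.lt_succ_self _) h
  intro v hv u hu h1
  have h2 := (wtQ_le (thr := thrT M c x) (H := 2 ^ hh M c x) (cap := cap) (g := gA M c x sd)
    (v := v) (u := u) (Nat.lt_succ_iff.1 h1)).1 le_rfl
  rcases h2 with h2 | h2
  · refine ⟨0, ?_⟩
    rw [h2, hit_self, mul_one]
    exact one_le_pow₀ (by norm_num)
  · obtain ⟨t, ht⟩ := edgeT_sound hM x sd (v := v) (u := u) (by rw [parx_n]; omega)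
      (by rw [parx_n]; omega) h2
    refine ⟨t + 1, ?_⟩
    rw [CT.hitR_eq] at ht
    rw [← Rat.cast_le (K := ℝ)]
    push_cast
    exact ht

end Vale.Agent.P313.H947
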