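import Vale.Agent.P313.R2.H284.Mid

/-!
Intermediate states with the product of the probabilities; paths with weights.
-/

namespace Vale.Agent.P313.H947

open Finset SV

section

variable {cs : ℕ → Bool → ℕ} {N : ℕ}

/-- The first time at which the hitting probability of `u` is at least `a`. -/
theorem mid_sum2 (hcl : Closed cs N) (u : ℕ) {a : ℚ} (ha : 0 < a) (ha1 : a ≤ 1) : ∀ c, ∀ v < N,
    hit cs u c v ≤ 2 * a →
    hit cs u c v ≤ ∑ t ∈ range (c + 1), ∑ w ∈ range N,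
      (if a ≤ hit cs u (c - t) w ∧ hit cs u (c - t) w ≤ 2 * a then
        hit cs w t v * hit cs u (c - t) w else 0) := by
  intro c
  have nn : ∀ (c t v w : ℕ), 0 ≤ (if a ≤ hit cs u (c - t) w ∧ hit cs u (c - t) w ≤ 2 * a then
        hit cs w t v * hit cs u (c - t) w else 0) := by
    intro c t v w
    split_ifs
    · exact mul_nonneg (hit_nonneg _ _ _) (hit_nonneg _ _ _)
    · exact le_rfl
  have key : ∀ c, ∀ v < N, a ≤ hit cs u c v → hit cs u c v ≤ 2 * a →
      hit cs u c v ≤ ∑ t ∈ range (c + 1), ∑ w ∈ range N,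
        (if a ≤ hit cs u (c - t) w ∧ hit cs u (c - t) w ≤ 2 * a then
          hit cs w t v * hit cs u (c - t) w else 0) := by
    intro c v hv h h'
    have h1 : ∀ t ∈ range (c + 1), 0 ≤ ∑ w ∈ range N,
        (if a ≤ hit cs u (c - t) w ∧ hit cs u (c - t) w ≤ 2 * a then
          hit cs w t v * hit cs u (c - t) w else 0) := fun t _ =>
      sum_nonneg fun w _ => nn c t v w
    refine le_trans ?_ (single_le_sum h1 (mem_range.2 (Nat.succ_pos c)))
    refine le_trans ?_ (single_le_sum (fun w _ => nn c 0 v w) (mem_range.2 hv))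
    rw [Nat.sub_zero, if_pos ⟨h, h'⟩, hit_self, one_mul]
  induction c with
  | zero =>
    intro v hv h
    by_cases h1 : a ≤ hit cs u 0 v
    · exact key 0 v hv h1 h
    · have h3 : hit cs u 0 v = 0 := by
        have e : hit cs u 0 v = if v = u then 1 else 0 := rfl
        rw [e] at h1 ⊢
        by_cases h4 : v = u
        · rw [if_pos h4] at h1; exact absurd ha1 h1
        · rw [if_neg h4]
      rw [h3]
      exact sum_nonneg fun t _ => sum_nonneg fun w _ => nn 0 t v w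
  | succ c ih =>
    intro v hv h
    by_cases h1 : a ≤ hit cs u (c + 1) v
    · exact key (c + 1) v hv h1 h
    · have e : hit cs u (c + 1) v = (hit cs u c (cs v false) + hit cs u c (cs v true)) / 2 := rfl
      have n0 := hit_nonneg (cs := cs) u c (cs v false)
      have n1 := hit_nonneg (cs := cs) u c (cs v true)
      have i0 := ih _ (hcl v hv false) (by rw [e] at h1; linarith)
      have i1 := ih _ (hcl v hv true) (by rw [e] at h1; linarith)
      rw [sum_range_succ']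
      have e2 : ∑ t ∈ range (c + 1), ∑ w ∈ range N,
          (if a ≤ hit cs u (c + 1 - (t + 1)) w ∧ hit cs u (c + 1 - (t + 1)) w ≤ 2 * a then
            hit cs w (t + 1) v * hit cs u (c + 1 - (t + 1)) w else 0) =
          ((∑ t ∈ range (c + 1), ∑ w ∈ range N,
            (if a ≤ hit cs u (c - t) w ∧ hit cs u (c - t) w ≤ 2 * a then
              hit cs w t (cs v false) * hit cs u (c - t) w else 0)) +
          (∑ t ∈ range (c + 1), ∑ w ∈ range N,
            (if a ≤ hit cs u (c - t) w ∧ hit cs u (c - t) w ≤ 2 * a then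
              hit cs w t (cs v true) * hit cs u (c - t) w else 0))) / 2 := by
        rw [← sum_add_distrib, sum_div]
        refine sum_congr rfl fun t _ => ?_
        rw [← sum_add_distrib, sum_div]
        refine sum_congr rfl fun w _ => ?_
        rw [Nat.add_sub_add_right]
        have e3 : hit cs w (t + 1) v = (hit cs w t (cs v false) + hit cs w t (cs v true)) / 2 := rfl
        rw [e3]
        split_ifs <;> ring
      have n3 : 0 ≤ ∑ w ∈ range N,
          (if a ≤ hit cs u (c + 1 - 0) w ∧ hit cs u (c + 1 - 0) w ≤ 2 * a then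
            hit cs w 0 v * hit cs u (c + 1 - 0) w else 0) :=
        sum_nonneg fun w _ => nn (c + 1) 0 v w
      rw [e, e2]
      linarith

/-- An intermediate state. -/
theorem mid2 (hcl : Closed cs N) {u c v : ℕ} (hv : v < N) {q W : ℚ} (hq : 0 < q) (hq1 : q ≤ 1)
    (hW : 2 * (N : ℚ) * (c + 1) ≤ W) (h : W * q ^ 2 ≤ hit cs u c v) :
    ∃ t ≤ c, ∃ w < N, q ≤ hit cs w t v ∧ q ≤ hit cs u (c - t) w ∧
      hit cs u c v ≤ N * (c + 1) * (hit cs w t v * hit cs u (c - t) w) := by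
  have hN : (1 : ℚ) ≤ N := by exact_mod_cast (show 1 ≤ N by omega)
  have hc : (1 : ℚ) ≤ (c : ℚ) + 1 := by
    have : (0 : ℚ) ≤ c := Nat.cast_nonneg _
    linarith
  obtain ⟨D, hD⟩ : ∃ D : ℚ, D = (N : ℚ) * (c + 1) := ⟨_, rfl⟩
  have hD1 : 1 ≤ D := by rw [hD]; nlinarith
  have hWD : 2 * D ≤ W := by rw [hD]; linarith
  rw [← hD]
  by_cases h1 : q ≤ hit cs u c v
  · refine ⟨0, Nat.zero_le _, v, hv, by rw [hit_self]; exact hq1,
      by rw [Nat.sub_zero]; exact h1, ?_⟩
    rw [Nat.sub_zero, hit_self, one_mul]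
    exact le_mul_of_one_le_left (hit_nonneg _ _ _) hD1
  by_contra hcon
  push Not at hcon
  have h2 := mid_sum2 hcl u hq hq1 c v hv (by linarith)
  obtain ⟨p, hp⟩ : ∃ p, p = hit cs u c v := ⟨_, rfl⟩
  rw [← hp] at h h1 h2 hcon
  have hp0 : 0 < p := lt_of_lt_of_le (mul_pos (by linarith) (pow_pos hq 2)) h
  have hpD : 0 < p / D := div_pos hp0 (by linarith)
  have h3 : ∑ t ∈ range (c + 1), ∑ w ∈ range N,
      (if q ≤ hit cs u (c - t) w ∧ hit cs u (c - t) w ≤ 2 * q then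
        hit cs w t v * hit cs u (c - t) w else 0) <
      ∑ t ∈ range (c + 1), ∑ w ∈ range N, p / D := by
    refine sum_lt_sum_of_nonempty ⟨0, mem_range.2 (Nat.succ_pos c)⟩ fun t ht => ?_
    refine sum_lt_sum_of_nonempty ⟨v, mem_range.2 hv⟩ fun w hw => ?_
    split_ifs with h4
    · by_contra h5
      push Not at h5
      have h6 := hcon t (by have := mem_range.1 ht; omega) w (mem_range.1 hw)
      obtain ⟨x, hx⟩ : ∃ x, x = hit cs w t v := ⟨_, rfl⟩
      obtain ⟨y, hy⟩ : ∃ y, y = hit cs u (c - t) w := ⟨_, rfl⟩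
      rw [← hx, ← hy] at h5 h6
      rw [← hy] at h4
      have hx0 : 0 ≤ x := by rw [hx]; exact hit_nonneg _ _ _
      rw [div_le_iff₀ (by linarith)] at h5
      have h7 : q ≤ x := by
        have h8 : 2 * D * q ^ 2 ≤ p := (mul_le_mul_of_nonneg_right hWD (sq_nonneg q)).trans h
        have h9 : x * y * D ≤ x * (2 * q) * D :=
          mul_le_mul_of_nonneg_right (mul_le_mul_of_nonneg_left h4.2 hx0) (by linarith)
        have h10 : (2 * D * q) * q ≤ (2 * D * q) * x := by nlinarith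
        exact le_of_mul_le_mul_left h10 (by positivity)
      have h11 := h6 h7 h4.1
      linarith
    · exact hpD
  rw [sum_const, sum_const, card_range, card_range, nsmul_eq_mul, nsmul_eq_mul] at h3
  push_cast at h3
  have h4 : ((c : ℚ) + 1) * (N * (p / D)) = p := by
    have : ((c : ℚ) + 1) * (N * (p / D)) = D * (p / D) := by rw [hD]; ring
    rw [this]
    field_simp
  rw [h4] at h3
  linarith

/-- Paths with `2 ^ i` edges of total weight at most `m`. -/
def rchm (N : ℕ) (wt : ℕ → ℕ → ℕ) : ℕ → ℕ → ℕ → ℕ → Prop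
  | 0, v, u, m => wt v u ≤ m
  | i + 1, v, u, m => ∃ w < N, ∃ m1 m2, m1 + m2 ≤ m ∧ rchm N wt i v w m1 ∧ rchm N wt i w u m2

theorem rchm_mono {N : ℕ} {wt : ℕ → ℕ → ℕ} : ∀ {i v u m m' : ℕ}, m ≤ m' → rchm N wt i v u m →
    rchm N wt i v u m' := by
  intro i v u m m' h h1
  cases i with
  | zero => exact le_trans h1 h
  | succ i =>
    obtain ⟨w, hw, m1, m2, h2, h3⟩ := h1
    exact ⟨w, hw, m1, m2, h2.trans h, h3⟩

theorem rchm_congr {N : ℕ} {wt wt' : ℕ → ℕ → ℕ} (h : ∀ v < N, ∀ u < N, wt v u = wt' v u) :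
    ∀ i, ∀ v < N, ∀ u < N, ∀ m, (rchm N wt i v u m ↔ rchm N wt' i v u m) := by
  intro i
  induction i with
  | zero =>
    intro v hv u hu m
    show wt v u ≤ m ↔ wt' v u ≤ m
    rw [h v hv u hu]
  | succ i ih =>
    intro v hv u hu m
    constructor
    · rintro ⟨w, hw, m1, m2, h0, h1, h2⟩
      exact ⟨w, hw, m1, m2, h0, (ih v hv w hw m1).1 h1, (ih w hw u hu m2).1 h2⟩
    · rintro ⟨w, hw, m1, m2, h0, h1, h2⟩
      exact ⟨w, hw, m1, m2, h0, (ih v hv w hw m1).2 h1, (ih w hw u hu m2).2 h2⟩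

/-- Completeness. -/
theorem rchm_of_hit (hcl : Closed cs N) {wt : ℕ → ℕ → ℕ} {T : ℕ} {W F G : ℚ} (hW1 : 1 ≤ W)
    (hW : 2 * (N : ℚ) * (T + 1) ≤ W) (hF : 0 ≤ F) (hG : (N : ℚ) * (T + 1) ≤ G)
    (hE : ∀ v < N, ∀ u < N, ∀ c ≤ T, (1 / W) ^ 2 ≤ hit cs u c v →
      hit cs u c v * 2 ^ wt v u ≤ F) :
    ∀ i, ∀ v < N, ∀ u < N, ∀ c ≤ T, (1 / W) ^ (2 ^ i + 1) ≤ hit cs u c v →
      ∃ m, rchm N wt i v u m ∧ hit cs u c v * 2 ^ m * G ≤ (F * G) ^ 2 ^ i := by
  have hW0 : 0 < W := by linarith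
  have h01 : 0 < 1 / W := by positivity
  have h11 : 1 / W ≤ 1 := by rw [div_le_one hW0]; exact hW1
  have hG0 : 0 ≤ G := le_trans (mul_nonneg (Nat.cast_nonneg _) (by positivity)) hG
  intro i
  induction i with
  | zero =>
    intro v hv u hu c hc h
    refine ⟨wt v u, le_rfl, ?_⟩
    rw [pow_zero, pow_one]
    exact mul_le_mul_of_nonneg_right (hE v hv u hu c hc h) hG0
  | succ i ih =>
    intro v hv u hu c hc h
    have h1 : W * ((1 / W) ^ (2 ^ i + 1)) ^ 2 ≤ hit cs u c v := by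
      refine le_trans (le_of_eq ?_) h
      rw [← pow_mul, show (2 ^ i + 1) * 2 = (2 ^ (i + 1) + 1) + 1 by ring,
        pow_succ _ (2 ^ (i + 1) + 1)]
      field_simp
    have hcT : (c : ℚ) ≤ T := by exact_mod_cast hc
    have h2 : 2 * (N : ℚ) * (c + 1) ≤ W := by
      refine le_trans (mul_le_mul_of_nonneg_left ?_ (by positivity)) hW
      linarith
    obtain ⟨t, ht, w, hw, h3, h4, h5⟩ := mid2 hcl hv (pow_pos h01 _) (pow_le_one₀ h01.le h11) h2 h1
    obtain ⟨m1, r1, b1⟩ := ih v hv w hw t (ht.trans hc) h3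
    obtain ⟨m2, r2, b2⟩ := ih w hw u hu (c - t) (by omega) h4
    refine ⟨m1 + m2, ⟨w, hw, m1, m2, le_rfl, r1, r2⟩, ?_⟩
    obtain ⟨x, hx⟩ : ∃ x, x = hit cs w t v := ⟨_, rfl⟩
    obtain ⟨y, hy⟩ : ∃ y, y = hit cs u (c - t) w := ⟨_, rfl⟩
    rw [← hx] at b1 h5
    rw [← hy] at b2 h5
    have hx0 : 0 ≤ x := by rw [hx]; exact hit_nonneg _ _ _
    have hy0 : 0 ≤ y := by rw [hy]; exact hit_nonneg _ _ _
    have hxy : 0 ≤ x * y := mul_nonneg hx0 hy0
    have h6 : hit cs u c v ≤ G * (x * y) := by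
      refine h5.trans (mul_le_mul_of_nonneg_right (le_trans ?_ hG) hxy)
      exact mul_le_mul_of_nonneg_left (by linarith) (Nat.cast_nonneg _)
    have h7 : 0 ≤ (2 : ℚ) ^ (m1 + m2) := by positivity
    calc hit cs u c v * 2 ^ (m1 + m2) * G ≤ G * (x * y) * 2 ^ (m1 + m2) * G :=
          mul_le_mul_of_nonneg_right (mul_le_mul_of_nonneg_right h6 h7) hG0
      _ = (x * 2 ^ m1 * G) * (y * 2 ^ m2 * G) := by rw [pow_add]; ring
      _ ≤ (F * G) ^ 2 ^ i * (F * G) ^ 2 ^ i :=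
          mul_le_mul b1 b2 (by positivity) (pow_nonneg (mul_nonneg hF hG0) _)
      _ = (F * G) ^ 2 ^ (i + 1) := by rw [← pow_add, pow_succ 2 i, mul_two]

/-- Soundness. -/
theorem hit_of_rchm {wt : ℕ → ℕ → ℕ} {cap : ℕ}
    (hE : ∀ v < N, ∀ u < N, wt v u < cap → ∃ c, 1 ≤ 2 ^ wt v u * hit cs u c v) :
    ∀ i, ∀ v < N, ∀ u < N, ∀ m < cap, rchm N wt i v u m → ∃ c, 1 ≤ 2 ^ m * hit cs u c v := by
  intro i
  induction i with
  | zero =>
    intro v hv u hu m hm h
    have h' : wt v u ≤ m := h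
    obtain ⟨c, hc⟩ := hE v hv u hu (lt_of_le_of_lt h' hm)
    refine ⟨c, hc.trans (mul_le_mul_of_nonneg_right ?_ (hit_nonneg _ _ _))⟩
    exact pow_le_pow_right₀ (by norm_num) h'
  | succ i ih =>
    rintro v hv u hu m hm ⟨w, hw, m1, m2, h0, h1, h2⟩
    obtain ⟨c, hc⟩ := ih v hv w hw m1 (by omega) h1
    obtain ⟨c', hc'⟩ := ih w hw u hu m2 (by omega) h2
    refine ⟨c + c', ?_⟩
    have h3 := hit_mul_le (cs := cs) u w c c' v
    have n1 := hit_nonneg (cs := cs) w c v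
    have n2 := hit_nonneg (cs := cs) u c' w
    calc (1 : ℚ) = 1 * 1 := by norm_num
      _ ≤ (2 ^ m1 * hit cs w c v) * (2 ^ m2 * hit cs u c' w) :=
          mul_le_mul hc hc' (by norm_num) (mul_nonneg (by positivity) n1)
      _ = 2 ^ (m1 + m2) * (hit cs w c v * hit cs u c' w) := by rw [pow_add]; ring
      _ ≤ 2 ^ m * hit cs u (c + c') v :=
          mul_le_mul (pow_le_pow_right₀ (by norm_num) h0) h3 (mul_nonneg n1 n2) (by positivity)

end

end Vale.Agent.P313.H947
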