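import Vale.Agent.P313.H947.Main
import Vale.Agent.P313.H427L.Fin4

/-!
The constructible version of the exponent `lam ^ (1/3) * m ^ (2/3) + (l * m) ^ (1/2)`.
-/

namespace Vale.Agent.P313.H947

open H427L
open H427 (one_le_logb one_le_logb2 natLog_le_logb)

/-- `loglog n`, up to a constant. -/
def l1x (n : ℕ) : ℕ := Nat.log 2 (Nat.log 2 (n + 2)) + 1

/-- The logarithm of `lam + loglog n`, up to a constant. -/
def elx (lam : ℕ → ℕ) (n : ℕ) : ℕ := Nat.log 2 (lam n + l1x n) + 1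

/-- The constructible exponent. -/
noncomputable def kap (lam : ℕ → ℕ) (n : ℕ) : ℕ :=
  rt 1 3 (lam n * elx lam n ^ 2) + rt 1 2 (l1x n * elx lam n) + 2

/-- The exponent. -/
noncomputable def Rl (lam : ℕ → ℕ) (n : ℕ) : ℝ :=
  (lam n : ℝ) ^ ((1 : ℝ) / 3) *
    Real.logb 2 ((lam n : ℝ) + Real.logb 2 (Real.logb 2 (n + 2) + 1) + 1) ^ ((2 : ℝ) / 3) +
    Real.sqrt (Real.logb 2 (Real.logb 2 (n + 2) + 1) *
      Real.logb 2 ((lam n : ℝ) + Real.logb 2 (Real.logb 2 (n + 2) + 1) + 1))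

theorem spl_eq (lam : ℕ → ℕ) (n : ℕ) :
    spl (fun n => (lam n : ℝ)) n = Real.logb 2 (n + 2) * Rl lam n := rfl

theorem one_le_Rl (lam : ℕ → ℕ) (n : ℕ) : 1 ≤ Rl lam n := by
  have h2 := one_le_logb2 n
  have h4 := one_le_ll (la := fun n => (lam n : ℝ)) n (Nat.cast_nonneg _)
  have h3 : 0 ≤ (lam n : ℝ) ^ ((1 : ℝ) / 3) * ll (fun n => (lam n : ℝ)) n ^ ((2 : ℝ) / 3) :=
    mul_nonneg (Real.rpow_nonneg (Nat.cast_nonneg _) _) (Real.rpow_nonneg (by linarith) _)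
  have h5 : 1 ≤ Real.sqrt (Real.logb 2 (Real.logb 2 ((n : ℝ) + 2) + 1) *
      ll (fun n => (lam n : ℝ)) n) := by
    rw [Real.one_le_sqrt]
    nlinarith
  change 1 ≤ (lam n : ℝ) ^ ((1 : ℝ) / 3) * ll (fun n => (lam n : ℝ)) n ^ ((2 : ℝ) / 3) +
    Real.sqrt (Real.logb 2 (Real.logb 2 ((n : ℝ) + 2) + 1) * ll (fun n => (lam n : ℝ)) n)
  linarith

theorem lfx_rt {f : List Bool → ℕ} (hf : Sel.LFx f) (b : ℕ) : Sel.LFx (fun x => rt 1 b (f x)) := by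
  unfold Sel.LFx rt
  have h1 := LF.least (k := 0) (n := fun x _ => f x ^ 1 + 1)
    (P := fun x a => f x ^ 1 < (a 0 + 1) ^ b)
    (LFP.lt ((hf.lf 1).powConst 1) ((LF.proj 0).succ.powConst b)) ((hf.lf 0).powConst 1).succ
  refine h1.congr (fun x a => ?_)
  simp only [Fin.cons_zero]

theorem lfx_kap {lam : ℕ → ℕ} (hlam : Sel.LFx (fun x => lam x.length)) :
    Sel.LFx (fun x => kap lam x.length) := by
  have hl1 : Sel.LFx (fun x => l1x x.length) := (LF.log2 (LF.log2 (LF.len.add (LF.const 2)))).succ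
  have hel : Sel.LFx (fun x => elx lam x.length) := (LF.log2 (LF.add hlam hl1)).succ
  exact LF.add (LF.add (lfx_rt (f := fun x => lam x.length * elx lam x.length ^ 2)
    (LF.mul hlam (LF.powConst hel 2)) 3) (lfx_rt (f := fun x => l1x x.length * elx lam x.length)
    (LF.mul hl1 hel) 2)) (LF.const 2)

section compare

variable (lam : ℕ → ℕ) (n : ℕ)

theorem logs : Real.logb 2 (Real.logb 2 ((n : ℝ) + 2) + 1) ≤ 2 * l1x n ∧
    (l1x n : ℝ) ≤ 2 * Real.logb 2 (Real.logb 2 ((n : ℝ) + 2) + 1) ∧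
    Real.logb 2 ((lam n : ℝ) + Real.logb 2 (Real.logb 2 (n + 2) + 1) + 1) ≤ 3 * elx lam n ∧
    (elx lam n : ℝ) ≤
      3 * Real.logb 2 ((lam n : ℝ) + Real.logb 2 (Real.logb 2 (n + 2) + 1) + 1) := by
  obtain ⟨N1, hN1⟩ : ∃ N1, N1 = Nat.log 2 (n + 2) := ⟨_, rfl⟩
  have hN : 1 ≤ N1 := by rw [hN1]; exact Nat.le_log_of_pow_le (by norm_num) (by omega)
  have h1 := one_le_logb n
  have h2 := one_le_logb2 n
  have hle : (N1 : ℝ) ≤ Real.logb 2 ((n : ℝ) + 2) := by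
    have := natLog_le_logb (n + 2) (by omega)
    push_cast at this
    rw [hN1]
    exact this
  have hlt : Real.logb 2 ((n : ℝ) + 2) < N1 + 1 := by
    have h3 := Nat.lt_pow_succ_log_self (b := 2) (by norm_num) (n + 2)
    rw [← hN1] at h3
    rw [Real.logb_lt_iff_lt_rpow (by norm_num) (by positivity)]
    have h4 : ((n + 2 : ℕ) : ℝ) < ((2 ^ (N1 + 1) : ℕ) : ℝ) := by exact_mod_cast h3
    have h5 : (2 : ℝ) ^ ((N1 : ℝ) + 1) = 2 ^ (N1 + 1) := by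
      rw [← Real.rpow_natCast]
      push_cast
      rfl
    rw [h5]
    push_cast at h4
    exact h4
  obtain ⟨l1, hl1⟩ : ∃ l1, l1 = l1x n := ⟨_, rfl⟩
  have hl1' : l1 = Nat.log 2 N1 + 1 := by rw [hl1, hN1]; rfl
  have hl11 : 1 ≤ l1 := by omega
  have hl11r : (1 : ℝ) ≤ l1 := by exact_mod_cast hl11
  obtain ⟨l, hl⟩ : ∃ l, l = Real.logb 2 (Real.logb 2 ((n : ℝ) + 2) + 1) := ⟨_, rfl⟩
  rw [← hl] at h2
  -- l ≤ l1 + 1
  have hA : l ≤ 2 * l1 := by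
    have h3 : N1 < 2 ^ l1 := by rw [hl1']; exact Nat.lt_pow_succ_log_self (by norm_num) _
    have h4 : N1 + 2 ≤ 2 ^ (l1 + 1) := by
      have : 1 ≤ 2 ^ l1 := Nat.one_le_two_pow
      rw [pow_succ]
      omega
    have h5 : l ≤ (l1 : ℝ) + 1 := by
      rw [hl, Real.logb_le_iff_le_rpow (by norm_num) (by linarith)]
      have h6 : (2 : ℝ) ^ ((l1 : ℝ) + 1) = 2 ^ (l1 + 1) := by
        rw [← Real.rpow_natCast]
        push_cast
        rfl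
      rw [h6]
      have h7 : ((N1 + 2 : ℕ) : ℝ) ≤ ((2 ^ (l1 + 1) : ℕ) : ℝ) := by exact_mod_cast h4
      push_cast at h7
      linarith
    linarith
  have hB : (l1 : ℝ) ≤ 2 * l := by
    have h3 : (Nat.log 2 N1 : ℝ) ≤ Real.logb 2 N1 := natLog_le_logb N1 hN
    have h4 : Real.logb 2 N1 ≤ l := by
      rw [hl]
      exact Real.logb_le_logb_of_le (by norm_num) (by exact_mod_cast hN) (by linarith)
    have h5 : (l1 : ℝ) = Nat.log 2 N1 + 1 := by rw [hl1']; push_cast; ring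
    linarith
  have hlam : (0 : ℝ) ≤ lam n := Nat.cast_nonneg _
  obtain ⟨m, hm⟩ : ∃ m, m = Real.logb 2 ((lam n : ℝ) + l + 1) := ⟨_, rfl⟩
  have hm1 : 1 ≤ m := by
    rw [hm, Real.le_logb_iff_rpow_le (by norm_num) (by linarith), Real.rpow_one]
    linarith
  obtain ⟨el, hel⟩ : ∃ el, el = elx lam n := ⟨_, rfl⟩
  have hel' : el = Nat.log 2 (lam n + l1) + 1 := by rw [hel, hl1]; rfl
  have hel1 : (1 : ℝ) ≤ el := by
    have : 1 ≤ el := by omega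
    exact_mod_cast this
  have hC : m ≤ 3 * el := by
    have h3 : lam n + l1 < 2 ^ el := by rw [hel']; exact Nat.lt_pow_succ_log_self (by norm_num) _
    have h3' : ((lam n + l1 : ℕ) : ℝ) < ((2 ^ el : ℕ) : ℝ) := by exact_mod_cast h3
    push_cast at h3'
    have h5 : m ≤ (el : ℝ) + 2 := by
      rw [hm, Real.logb_le_iff_le_rpow (by norm_num) (by linarith),
        Real.rpow_add (by norm_num), Real.rpow_natCast]
      have h6 : (2 : ℝ) ^ (2 : ℝ) = 4 := by norm_num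
      rw [h6]
      linarith
    linarith
  have hD : (el : ℝ) ≤ 3 * m := by
    have h0 : 1 ≤ lam n + l1 := by omega
    have h3 : (Nat.log 2 (lam n + l1) : ℝ) ≤ Real.logb 2 ((lam n + l1 : ℕ) : ℝ) :=
      natLog_le_logb _ h0
    have h4 : Real.logb 2 ((lam n + l1 : ℕ) : ℝ) ≤ Real.logb 2 (2 * ((lam n : ℝ) + l + 1)) := by
      apply Real.logb_le_logb_of_le (by norm_num) (by exact_mod_cast h0)
      push_cast
      linarith
    have h5 : Real.logb 2 (2 * ((lam n : ℝ) + l + 1)) = 1 + m := by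
      rw [Real.logb_mul (by norm_num) (by linarith), hm, Real.logb_self_eq_one (by norm_num)]
    have h6 : (el : ℝ) = Nat.log 2 (lam n + l1) + 1 := by rw [hel']; push_cast; ring
    linarith
  rw [← hl, ← hl1, ← hel, ← hm]
  exact ⟨hA, hB, hC, hD⟩

theorem rpow_three_le {y : ℝ} (hy : 0 ≤ y) : (3 * y) ^ ((2 : ℝ) / 3) ≤ 3 * y ^ ((2 : ℝ) / 3) := by
  rw [Real.mul_rpow (by norm_num) hy]
  apply mul_le_mul_of_nonneg_right _ (Real.rpow_nonneg hy _)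
  calc (3 : ℝ) ^ ((2 : ℝ) / 3) ≤ 3 ^ (1 : ℝ) :=
        Real.rpow_le_rpow_of_exponent_le (by norm_num) (by norm_num)
    _ = 3 := Real.rpow_one _

theorem cbrt_le {a b : ℝ} (ha : 0 ≤ a) (hb : 0 ≤ b) {k : ℝ} (hk : 0 ≤ k) (h : a * b ^ 2 ≤ k ^ 3) :
    a ^ ((1 : ℝ) / 3) * b ^ ((2 : ℝ) / 3) ≤ k := by
  have h5 : (a * b ^ (2 : ℕ)) ^ ((1 : ℝ) / 3) = a ^ ((1 : ℝ) / 3) * b ^ ((2 : ℝ) / 3) := by
    rw [Real.mul_rpow ha (by positivity), ← Real.rpow_natCast b 2, ← Real.rpow_mul hb]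
    norm_num
  have h3 : k = (k ^ (3 : ℕ)) ^ ((1 : ℝ) / 3) := by
    rw [← Real.rpow_natCast, ← Real.rpow_mul hk]
    norm_num
  rw [← h5, h3]
  exact Real.rpow_le_rpow (by positivity) h (by norm_num)

theorem le_cbrt {a b : ℝ} (ha : 0 ≤ a) (hb : 0 ≤ b) {k : ℝ} (hk : 0 ≤ k) (h : k ^ 3 ≤ a * b ^ 2) :
    k ≤ a ^ ((1 : ℝ) / 3) * b ^ ((2 : ℝ) / 3) := by
  have h5 : (a * b ^ (2 : ℕ)) ^ ((1 : ℝ) / 3) = a ^ ((1 : ℝ) / 3) * b ^ ((2 : ℝ) / 3) := by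
    rw [Real.mul_rpow ha (by positivity), ← Real.rpow_natCast b 2, ← Real.rpow_mul hb]
    norm_num
  have h3 : k = (k ^ (3 : ℕ)) ^ ((1 : ℝ) / 3) := by
    rw [← Real.rpow_natCast, ← Real.rpow_mul hk]
    norm_num
  rw [← h5]
  calc k = (k ^ (3 : ℕ)) ^ ((1 : ℝ) / 3) := h3
    _ ≤ _ := Real.rpow_le_rpow (by positivity) h (by norm_num)

theorem sqrt_cmp {l m L E : ℝ} (hm : 0 ≤ m) (hL : 0 ≤ L) (hE : 0 ≤ E)
    (h1 : l ≤ 2 * L) (h2 : m ≤ 3 * E) : Real.sqrt (l * m) ≤ 3 * Real.sqrt (L * E) := by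
  have h0 : 0 ≤ L * E := mul_nonneg hL hE
  have h5 : l * m ≤ 3 ^ 2 * (L * E) := by
    calc l * m ≤ (2 * L) * (3 * E) := mul_le_mul h1 h2 hm (by linarith)
      _ = 6 * (L * E) := by ring
      _ ≤ 3 ^ 2 * (L * E) := by linarith
  refine (Real.sqrt_le_sqrt h5).trans (le_of_eq ?_)
  rw [Real.sqrt_mul (by norm_num), Real.sqrt_sq (by norm_num)]

theorem cb_cmp {a y z : ℝ} (ha : 0 ≤ a) (hy : 0 ≤ y) (hz : 0 ≤ z) (h : y ≤ 3 * z) :
    a ^ ((1 : ℝ) / 3) * y ^ ((2 : ℝ) / 3) ≤ 3 * (a ^ ((1 : ℝ) / 3) * z ^ ((2 : ℝ) / 3)) := by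
  have h4 : y ^ ((2 : ℝ) / 3) ≤ 3 * z ^ ((2 : ℝ) / 3) :=
    (Real.rpow_le_rpow hy h (by norm_num)).trans (rpow_three_le hz)
  calc _ ≤ a ^ ((1 : ℝ) / 3) * (3 * z ^ ((2 : ℝ) / 3)) :=
        mul_le_mul_of_nonneg_left h4 (Real.rpow_nonneg ha _)
    _ = _ := by ring

/-- The numbers of the comparison. -/
theorem kap_cmp {a l m L E : ℝ} {A B : ℕ} {x : ℕ} {y z : ℕ} (ha : a = x) (hLy : L = y) (hEz : E = z)
    (hl : 0 ≤ l) (hm : 0 ≤ m) (h1 : l ≤ 2 * L) (h2 : L ≤ 2 * l) (h3 : m ≤ 3 * E)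
    (h4 : E ≤ 3 * m) (g2 : A ^ 3 ≤ x * z ^ 2) (g3 : x * z ^ 2 < (A + 1) ^ 3)
    (f2 : B ^ 2 ≤ y * z) (f3 : y * z < (B + 1) ^ 2) :
    a ^ ((1 : ℝ) / 3) * m ^ ((2 : ℝ) / 3) + Real.sqrt (l * m) ≤ 3 * ((A : ℝ) + B + 2) ∧
    ((A : ℝ) + B) ≤ 3 * (a ^ ((1 : ℝ) / 3) * m ^ ((2 : ℝ) / 3) + Real.sqrt (l * m)) := by
  have ha0 : 0 ≤ a := by rw [ha]; exact Nat.cast_nonneg _
  have hL0 : 0 ≤ L := by rw [hLy]; exact Nat.cast_nonneg _
  have hE0 : 0 ≤ E := by rw [hEz]; exact Nat.cast_nonneg _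
  have hA0 : (0 : ℝ) ≤ A := Nat.cast_nonneg _
  have hB0 : (0 : ℝ) ≤ B := Nat.cast_nonneg _
  have e1 : (A : ℝ) ^ 3 ≤ a * E ^ 2 := by rw [ha, hEz]; exact_mod_cast g2
  have e2 : a * E ^ 2 ≤ ((A : ℝ) + 1) ^ 3 := by rw [ha, hEz]; exact_mod_cast g3.le
  have e3 : (B : ℝ) ^ 2 ≤ L * E := by rw [hLy, hEz]; exact_mod_cast f2
  have e4 : L * E ≤ ((B : ℝ) + 1) ^ 2 := by rw [hLy, hEz]; exact_mod_cast f3.le
  have i1 := cbrt_le ha0 hE0 (add_nonneg hA0 zero_le_one) e2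
  have i2 := le_cbrt ha0 hE0 hA0 e1
  have i3 : Real.sqrt (L * E) ≤ B + 1 := Real.sqrt_le_iff.2 ⟨add_nonneg hB0 zero_le_one, e4⟩
  have i4 : (B : ℝ) ≤ Real.sqrt (L * E) := Real.le_sqrt_of_sq_le e3
  have j1 := cb_cmp ha0 hm hE0 h3
  have j2 := cb_cmp ha0 hE0 hm h4
  have j3 := sqrt_cmp hm hL0 hE0 h1 h3
  have j4 := sqrt_cmp hE0 hl hm h2 h4
  constructor <;> linarith

theorem kap_both : Rl lam n ≤ 3 * kap lam n ∧ (kap lam n : ℝ) ≤ 5 * Rl lam n := by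
  obtain ⟨hA, hB, hC, hD⟩ := logs lam n
  have hR1 := one_le_Rl lam n
  obtain ⟨l, hl⟩ : ∃ l, l = Real.logb 2 (Real.logb 2 ((n : ℝ) + 2) + 1) := ⟨_, rfl⟩
  obtain ⟨m, hm⟩ : ∃ m, m = Real.logb 2 ((lam n : ℝ) + l + 1) := ⟨_, rfl⟩
  rw [← hl] at hA hB hC hD
  rw [← hm] at hC hD
  have hg := rt_spec (a := 1) (b := 3) (L := lam n * elx lam n ^ 2) (by norm_num)
  have hf := rt_spec (a := 1) (b := 2) (L := l1x n * elx lam n) (by norm_num)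
  have hk : kap lam n = rt 1 3 (lam n * elx lam n ^ 2) + rt 1 2 (l1x n * elx lam n) + 2 := rfl
  rw [pow_one] at hg hf
  generalize rt 1 3 (lam n * elx lam n ^ 2) = X at hg hk
  generalize rt 1 2 (l1x n * elx lam n) = Y at hf hk
  have hlam : (0 : ℝ) ≤ lam n := Nat.cast_nonneg _
  have hl0 : 0 ≤ l := by rw [hl]; linarith [one_le_logb2 n]
  have hm0 : 0 ≤ m := by
    rw [hm]
    exact Real.logb_nonneg (by norm_num) (by linarith)
  have e : Rl lam n = (lam n : ℝ) ^ ((1 : ℝ) / 3) * m ^ ((2 : ℝ) / 3) + Real.sqrt (l * m) := by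
    rw [hm, hl]
    rfl
  obtain ⟨k1, k2⟩ := kap_cmp (a := (lam n : ℝ)) (L := (l1x n : ℝ)) (E := (elx lam n : ℝ)) rfl rfl
    rfl hl0 hm0 hA hB hC hD hg.1 hg.2 hf.1 hf.2
  rw [← e] at k1 k2
  rw [hk]
  push_cast
  constructor
  · linarith
  · linarith

/-- The exponent is at most three times its constructible version. -/
theorem Rl_le : Rl lam n ≤ 3 * kap lam n := (kap_both lam n).1

/-- And conversely. -/
theorem le_Rl : (kap lam n : ℝ) ≤ 5 * Rl lam n := (kap_both lam n).2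

end compare

end Vale.Agent.P313.H947
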