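import Vale.Agent.P313.H947.MainT

/-!
Small success probabilities with sharp thresholds in the space of the two-unit algorithm.
-/

namespace Vale.Agent.P313.H947

open Finset BP H126 H427L ZL SV
open H427 (statN one_le_logb one_le_logb2 natLog_le_logb)
open scoped Classical

/-- THE GENERAL THEOREM, for bounded exponents. -/
theorem decides_sharp0 {M : RTM} {c0 : ℕ}
    (hM : M.Bounded (fun n => (n + 2) ^ c0) (fun n => c0 * Nat.log 2 (n + 2)))
    {lam : List Bool → ℕ} (hlam : Sel.LFx lam)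
    (hcoin : ∀ (x : List Bool) (v : Bool),
      M.probAt x v ((x.length + 2) ^ c0) (2 ^ lam x + 1) M.init = 0)
    {la : ℕ → ℝ} (hla : ∀ x, (lam x : ℝ) ≤ la x.length) (hla0 : ∀ n, 0 ≤ la n)
    {C : ℕ} (hC : ∀ x : List Bool, Sel.sh M c0 x ≤ C * Nat.log 2 (x.length + 2))
    (a r : ℕ) (hr : 1 ≤ r) {κ : List Bool → ℕ} (hκ : Sel.LFx κ)
    (hκ1 : ∀ x : List Bool, κ x ≤ c0 * (Nat.log 2 (x.length + 2) + 1) + r)
    {S : ℕ → ℝ} (hS : ∀ n, spl la n ≤ S n) {c2 : ℕ}
    (hκS : ∀ x, ((κ x * Nat.log 2 (x.length + 2) : ℕ) : ℝ) ≤ c2 * S x.length + c2) :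
    ∃ (A : Set (List Bool)) (D : RTM) (e' : ℕ),
      D.Decides A (fun n => (2 : ℝ) ^ (e' * S n + e')) (fun n => e' * S n + e') ∧
      ∀ x : List Bool,
        (1 / ((x.length : ℚ) + 2) ^ (a * 2 ^ κ x) ≤
          M.probAt x true ((x.length + 2) ^ c0) 0 M.init ^ r → x ∈ A) ∧
        (M.probAt x true ((x.length + 2) ^ c0) 0 M.init ^ r <
          1 / ((x.length : ℚ) + 2) ^ ((a + 1) * 2 ^ κ x + r * ((4 * c0 + 5) * C)) → x ∉ A) := by
  have hlog : Sel.LFx (fun x => Nat.log 2 (x.length + 2) + 1) :=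
    (LF.log2 (LF.len.add (LF.const 2))).succ
  obtain ⟨β, hβ⟩ : ∃ β, β = (4 * c0 + 5) * C := ⟨_, rfl⟩
  rw [← hβ]
  obtain ⟨j, hj⟩ : ∃ j, j = 2 * r * β := ⟨_, rfl⟩
  obtain ⟨t, ht⟩ : ∃ t, t = 2 * a + 1 := ⟨_, rfl⟩
  obtain ⟨K0, hK0⟩ : ∃ K0, K0 = 10 * c0 + 2 * (a * 2 ^ j) + t + a + r + 20 := ⟨_, rfl⟩
  let c : Cf := ⟨c0, K0, fun x => min (lam x)
    (c0 * (Nat.log 2 (x.length + 2) + 1)), LF.min hlam (LF.mul (LF.const c0) hlog)⟩
  have hMc : M.Bounded (fun n => (n + 2) ^ c.c) (fun n => c.c * Nat.log 2 (n + 2)) := hM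
  have hla' : ∀ x, (c.la x : ℝ) ≤ la x.length := by
    intro x
    refine le_trans ?_ (hla x)
    have : c.la x ≤ lam x := min_le_left _ _
    exact_mod_cast this
  obtain ⟨c1, hc1, hc2, hc3⟩ := space_bounds M c hla'
  have hhe : ∀ x, hh M c x = (K0 + 1) * Sel.sh M c0 x := fun x => rfl
  obtain ⟨C3, hC3⟩ : ∃ C3 : ℕ, C3 = cB * ((K0 + 1) * C) + 2 := ⟨_, rfl⟩
  -- the logarithm of the bound of the values
  have hlogB : ∀ x, Nat.log 2 (x.length + Bx M c x + 2) + 1 ≤ C3 * Nat.log 2 (x.length + 2) := by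
    intro x
    have h1 := len_le (M := M) (c := c) x
    have h2 : 2 ^ hh M c x ≤ Bx M c x := PP.pow_mono (by simp only [cB]; omega)
    have h3 : x.length + Bx M c x + 2 ≤ 2 ^ (cB * hh M c x + 1) := by
      rw [pow_succ]
      unfold Bx at h2 ⊢
      omega
    have h4 : Nat.log 2 (x.length + Bx M c x + 2) ≤ cB * hh M c x + 1 := by
      have := Nat.log_mono_right (b := 2) h3
      rwa [Nat.log_pow (by norm_num)] at this
    have h5 : hh M c x ≤ (K0 + 1) * C * Nat.log 2 (x.length + 2) := by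
      rw [hhe, mul_assoc]
      exact Nat.mul_le_mul_left _ (hC x)
    have h6 := Sel.Ln_pos x
    have h7 : Sel.Ln x = Nat.log 2 (x.length + 2) := rfl
    rw [h7] at h6
    have h8 : cB * hh M c x ≤ cB * ((K0 + 1) * C) * Nat.log 2 (x.length + 2) := by
      rw [mul_assoc]
      exact Nat.mul_le_mul_left _ h5
    rw [hC3, add_mul]
    omega
  have hspl0 : ∀ n, 0 ≤ spl la n := fun n => spl_nonneg n (hla0 n)
  have hS0 : ∀ n, 0 ≤ S n := fun n => (hspl0 n).trans (hS n)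
  obtain ⟨c4, hc4⟩ : ∃ c4 : ℕ, c4 = c1 + C3 * (c2 + 1) := ⟨_, rfl⟩
  have hmono : ∀ (y : ℝ) (n : ℕ), y ≤ c1 * spl la n + c1 → y ≤ c4 * S n + c4 := by
    intro y n hy
    have h1 : (c1 : ℝ) ≤ c4 := by
      have : c1 ≤ c4 := by rw [hc4]; exact Nat.le_add_right _ _
      exact_mod_cast this
    have h2 : (0 : ℝ) ≤ c1 := Nat.cast_nonneg _
    have h3 := mul_le_mul_of_nonneg_left (hS n) h2
    have h4 := mul_le_mul_of_nonneg_right h1 (hS0 n)
    linarith
  have hS4 : ∀ x, (((κ x - j + 1) * (Nat.log 2 (x.length + Bx M c x + 2) + 1) : ℕ) : ℝ) ≤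
      c4 * S x.length + c4 := by
    intro x
    have h1 : (κ x - j + 1) * (Nat.log 2 (x.length + Bx M c x + 2) + 1) ≤
        C3 * (κ x * Nat.log 2 (x.length + 2)) + C3 * Nat.log 2 (x.length + 2) := by
      calc _ ≤ (κ x + 1) * (C3 * Nat.log 2 (x.length + 2)) :=
            Nat.mul_le_mul (by omega) (hlogB x)
        _ = _ := by ring
    have h2 : (((κ x - j + 1) * (Nat.log 2 (x.length + Bx M c x + 2) + 1) : ℕ) : ℝ) ≤
        C3 * ((κ x * Nat.log 2 (x.length + 2) : ℕ) : ℝ) + C3 * (Nat.log 2 (x.length + 2) : ℝ) := by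
      exact_mod_cast h1
    have h3 := hκS x
    have h4 : (Nat.log 2 (x.length + 2) : ℝ) ≤ S x.length := by
      have h5 := natLog_le_logb (x.length + 2) (by omega)
      push_cast at h5
      exact h5.trans ((ell_le_spl x.length (hla0 _)).trans (hS _))
    have h6 : (0 : ℝ) ≤ C3 := Nat.cast_nonneg _
    have h7 := mul_le_mul_of_nonneg_left h3 h6
    have h8 := mul_le_mul_of_nonneg_left h4 h6
    have h9 : (0 : ℝ) ≤ c1 * S x.length + c1 :=
      add_nonneg (mul_nonneg (Nat.cast_nonneg _) (hS0 x.length)) (Nat.cast_nonneg _)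
    have h10 : (c4 : ℝ) = c1 + C3 * (c2 + 1) := by
      rw [hc4]
      push_cast
      ring
    rw [h10]
    have h11 : (C3 : ℝ) * (c2 * S x.length + c2) = C3 * c2 * S x.length + C3 * c2 := by ring
    have h12 : ((c1 : ℝ) + C3 * (c2 + 1)) * S x.length + (c1 + C3 * (c2 + 1)) =
        (c1 * S x.length + c1) + (C3 * c2 * S x.length + C3 * c2) + C3 * S x.length + C3 := by ring
    rw [h12]
    rw [h11] at h7
    linarith only [h2, h7, h8, h9, h6]
  have hlsh : ∀ x : List Bool, Nat.log 2 (x.length + 2) ≤ Sel.sh M c0 x :=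
    fun x => Sel.log_n_le (M := M) (c := c0) x
  have hsh5 : ∀ x : List Bool, 5 ≤ Sel.sh M c0 x := fun x => Sel.five_le_h (M := M) (c := c0) x
  have hn2 : ∀ x : List Bool, x.length + 2 ≤ 2 ^ Sel.sh M c0 x :=
    fun x => (Sel.n_lt (M := M) (c := c0) x).le
  have hκsh : ∀ x, κ x ≤ (2 * c0 + r) * Sel.sh M c0 x := by
    intro x
    refine (hκ1 x).trans ?_
    have h1 := hlsh x
    have h2 := hsh5 x
    have h3 : c0 * (Nat.log 2 (x.length + 2) + 1) ≤ c0 * (2 * Sel.sh M c0 x) :=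
      Nat.mul_le_mul_left _ (by omega)
    have h4 : r * 1 ≤ r * Sel.sh M c0 x := Nat.mul_le_mul_left _ (by omega)
    rw [add_mul]
    have h5 : 2 * c0 * Sel.sh M c0 x = c0 * (2 * Sel.sh M c0 x) := by ring
    omega
  have hκhh : ∀ x, κ x ≤ 1 * hh M c x := by
    intro x
    rw [one_mul, hhe]
    exact (hκsh x).trans (Nat.mul_le_mul_right _ (by rw [hK0]; omega))
  have hκB : ∀ x, κ x - j ≤ Bx M c x := by
    intro x
    refine (Nat.sub_le _ _).trans ((hκhh x).trans ?_)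
    rw [one_mul]
    refine (Nat.lt_two_pow_self (n := hh M c x)).le.trans ?_
    exact PP.pow_mono (by simp only [cB]; omega)
  -- the budget
  let Bq : List Bool → ℕ := fun x => (4 * c0 + 2) * Sel.sh M c0 x + 11
  let Lt : List Bool → ℕ := fun x => Nat.log 2 ((x.length + 2) ^ t) + 1
  let cap : List Bool → ℕ := fun x => Bq x * 2 ^ (κ x - j) + Lt x * a * 2 ^ κ x / (r * t)
  have hshLF : Sel.LFx (fun x => Sel.sh M c0 x) := Sel.lfx_h (M := M) (c := c0)
  have hBqLF : Sel.LFx Bq := ((LF.const (4 * c0 + 2)).mul hshLF).add (LF.const 11)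
  have hLtLF : Sel.LFx Lt := (LF.log2 ((LF.len.add (LF.const 2)).powConst t)).succ
  have hp1 : Sel.LFx (fun x => 2 ^ κ x) := lfx_two_pow (M := M) (c := c) hκ (d := 1) hκhh
  have hκ' : Sel.LFx (fun x => κ x - j) := LF.sub hκ (LF.const j)
  have hp2 : Sel.LFx (fun x => 2 ^ (κ x - j)) := lfx_two_pow (M := M) (c := c) hκ' (d := 1)
    (fun x => (Nat.sub_le _ _).trans (hκhh x))
  have hcapLF : Sel.LFx cap := (hBqLF.mul hp2).add (((hLtLF.mul (LF.const a)).mul hp1).div
    (LF.const (r * t)))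
  have hHLF : Sel.LFx (fun x => 2 ^ hh M c x - 1) :=
    (lfx_two_pow (M := M) (c := c) lfx_hh (d := 1) (fun x => by rw [one_mul])).sub (LF.const 1)
  have hN0sh : ∀ x, Sel.sN M c.c x ≤ 2 ^ Sel.sh M c0 x :=
    fun x => (Sel.N_lt (M := M) (c := c0) x).le
  have hcapB : ∀ x, cap x + 1 ≤ 2 ^ ((6 * c0 + t + a + r + 8) * Sel.sh M c0 x) := by
    intro x
    have h2 := hsh5 x
    have hb : Bq x ≤ 2 ^ ((4 * c0 + 5) * Sel.sh M c0 x) := by
      refine le_trans ?_ (Nat.lt_two_pow_self).le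
      show (4 * c0 + 2) * Sel.sh M c0 x + 11 ≤ _
      have : (4 * c0 + 5) * Sel.sh M c0 x = (4 * c0 + 2) * Sel.sh M c0 x + 3 * Sel.sh M c0 x := by
        ring
      omega
    have hk : 2 ^ κ x ≤ 2 ^ ((2 * c0 + r) * Sel.sh M c0 x) := PP.pow_mono (hκsh x)
    have hk' : 2 ^ (κ x - j) ≤ 2 ^ ((2 * c0 + r) * Sel.sh M c0 x) :=
      PP.pow_mono ((Nat.sub_le _ _).trans (hκsh x))
    have hl : Lt x ≤ 2 ^ ((t + 1) * Sel.sh M c0 x) := by
      refine le_trans ?_ (Nat.lt_two_pow_self).le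
      show Nat.log 2 ((x.length + 2) ^ t) + 1 ≤ _
      have h3 : Nat.log 2 ((x.length + 2) ^ t) ≤ t * Sel.sh M c0 x := by
        have h4 : (x.length + 2) ^ t ≤ 2 ^ (t * Sel.sh M c0 x) := by
          rw [mul_comm, pow_mul]
          exact Nat.pow_le_pow_left (hn2 x) t
        have := Nat.log_mono_right (b := 2) h4
        rwa [Nat.log_pow (by norm_num)] at this
      have : (t + 1) * Sel.sh M c0 x = t * Sel.sh M c0 x + Sel.sh M c0 x := by ring
      omega
    have ha : a ≤ 2 ^ (a * Sel.sh M c0 x) := by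
      refine (Nat.lt_two_pow_self (n := a)).le.trans (PP.pow_mono ?_)
      exact Nat.le_mul_of_pos_right _ (by omega)
    have h5 : Bq x * 2 ^ (κ x - j) ≤ 2 ^ ((6 * c0 + t + a + r + 6) * Sel.sh M c0 x) := by
      calc Bq x * 2 ^ (κ x - j) ≤ 2 ^ ((4 * c0 + 5) * Sel.sh M c0 x) *
            2 ^ ((2 * c0 + r) * Sel.sh M c0 x) := Nat.mul_le_mul hb hk'
        _ = 2 ^ ((6 * c0 + r + 5) * Sel.sh M c0 x) := by rw [← pow_add]; congr 1; ring
        _ ≤ _ := PP.pow_mono (Nat.mul_le_mul_right _ (by omega))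
    have h6 : Lt x * a * 2 ^ κ x / (r * t) ≤ 2 ^ ((6 * c0 + t + a + r + 6) * Sel.sh M c0 x) := by
      refine (Nat.div_le_self _ _).trans ?_
      calc Lt x * a * 2 ^ κ x ≤ 2 ^ ((t + 1) * Sel.sh M c0 x) * 2 ^ (a * Sel.sh M c0 x) *
            2 ^ ((2 * c0 + r) * Sel.sh M c0 x) := Nat.mul_le_mul (Nat.mul_le_mul hl ha) hk
        _ = 2 ^ ((2 * c0 + t + a + r + 1) * Sel.sh M c0 x) := by
            rw [← pow_add, ← pow_add]; congr 1; ring
        _ ≤ _ := PP.pow_mono (Nat.mul_le_mul_right _ (by omega))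
    have h7 : (6 * c0 + t + a + r + 8) * Sel.sh M c0 x =
        (6 * c0 + t + a + r + 6) * Sel.sh M c0 x + 2 * Sel.sh M c0 x := by ring
    have h8 : 1 ≤ 2 ^ ((6 * c0 + t + a + r + 6) * Sel.sh M c0 x) := Nat.one_le_two_pow
    have h9 : 2 ^ 2 ≤ 2 ^ (2 * Sel.sh M c0 x) := PP.pow_mono (by omega)
    show Bq x * 2 ^ (κ x - j) + Lt x * a * 2 ^ κ x / (r * t) + 1 ≤ _
    rw [h7, pow_add]
    nlinarith
  have hN1B : ∀ x, Sel.sN M c.c x * (cap x + 1) ≤ Bx M c x := by
    intro x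
    calc Sel.sN M c.c x * (cap x + 1) ≤ 2 ^ Sel.sh M c0 x *
          2 ^ ((6 * c0 + t + a + r + 8) * Sel.sh M c0 x) := Nat.mul_le_mul (hN0sh x) (hcapB x)
      _ = 2 ^ ((6 * c0 + t + a + r + 9) * Sel.sh M c0 x) := by rw [← pow_add]; congr 1; ring
      _ ≤ 2 ^ (cB * hh M c x) := by
          apply PP.pow_mono
          rw [hhe]
          refine le_trans (Nat.mul_le_mul_right _ ?_) (Nat.le_mul_of_pos_left _ (by norm_num [cB]))
          rw [hK0]
          omega
  have hs0N : ∀ x, stx M c x < Sel.sN M c.c x := by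
    intro x
    have h1 := (CT.chain_ok hMc x (n_ge (M := M) (c := c) x)).start_lt
    rw [parx_n] at h1
    unfold stx
    omega
  obtain ⟨A, D, e', hD, hA⟩ := assembleT (p := progX M c) progX_ok (B := Bx M c)
    (w := fun x => (parx M c x).q) (L := fun x => (parx M c x).L) (top := topx M c)
    (thr := thrT M c) (H := fun x => 2 ^ hh M c x - 1) (cap := cap)
    (NS := fun x => nSd (parx M c x)) (N0 := Sel.sN M c.c) (s0 := stx M c)
    (κ := fun x => κ x - j) (st := fun x j sd => statN (parx M c x) sd j) (qy := qyS)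
    lfx_B ((lfx_q (M := M) (c := c)).congr (fun x a => by rw [parx_q]))
    ((lfx_L (M := M) (c := c)).congr (fun x a => by rw [parx_L])) lfx_top lfx_thrT hHLF hcapLF
    Sel.lfx_N
    (CT.lfx_start M c.c) hκ' (lf_stat (LF.proj 1) (LF.proj 0))
    (Z.lf_npair (LF.const 0) (Z.lf_npair (LF.proj 0) (LF.proj 1))) lf_nSd
    (fun x => Nat.one_le_iff_ne_zero.2 (NeZero.ne _)) top_le hκB hN1B hs0N
    (fun x v hv u hu => qyS_le x hv hu) hS0 (c1 := c4)
    (fun x => hmono _ _ (hc1 x)) (fun x => hmono _ _ (hc2 x)) (fun x => hmono _ _ (hc3 x)) hS4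
  refine ⟨A, D, e', hD, fun x => ?_⟩
  -- the numbers
  obtain ⟨e, he⟩ : ∃ e, e = a * 2 ^ j := ⟨_, rfl⟩
  rw [← he] at hK0
  obtain ⟨T, hTd⟩ : ∃ T, T = min (2 ^ lam x) (Sel.sT c0 x) := ⟨_, rfl⟩
  obtain ⟨W, hWd⟩ : ∃ W, W = 2 * Sel.sN M c.c x * (T + 1) * (x.length + 2) ^ e := ⟨_, rfl⟩
  have hsh5x := hsh5 x
  have hlshx := hlsh x
  have hsT : Sel.sT c0 x ≤ 2 ^ Sel.sh M c0 x := T_le (M := M) (c := c) x
  have hlax : lax M c x ≤ 2 * (c0 * Sel.sh M c0 x) := by
    have h1 : lax M c x ≤ c0 * (Nat.log 2 (x.length + 2) + 1) :=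
      (min_le_left _ _).trans (min_le_right _ _)
    refine h1.trans ?_
    calc c0 * (Nat.log 2 (x.length + 2) + 1) ≤ c0 * (2 * Sel.sh M c0 x) :=
          Nat.mul_le_mul_left _ (by omega)
      _ = _ := by ring
  have hTlax : T ≤ 2 ^ lax M c x := by
    have e1 : lax M c x = min (min (lam x) (c0 * (Nat.log 2 (x.length + 2) + 1))) (hh M c x) := rfl
    rw [e1]
    rcases min_choice (min (lam x) (c0 * (Nat.log 2 (x.length + 2) + 1))) (hh M c x) with h | h
    · rw [h]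
      rcases min_choice (lam x) (c0 * (Nat.log 2 (x.length + 2) + 1)) with h' | h'
      · rw [h', hTd]; exact min_le_left _ _
      · rw [h', hTd]; exact (min_le_right _ _).trans (T_le_log c0 x)
    · rw [h, hTd]
      exact (min_le_right _ _).trans (hsT.trans (pow_sh_le (M := M) (c := c) x))
  have hNpos : 0 < Sel.sN M c.c x := by
    have := Sel.sN_pos (M := M) (c := c.c) x
    omega
  have hN2 : Sel.sN M c.c x ≤ 2 ^ Sel.sh M c0 x := hN0sh x
  have hn2x := hn2 x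
  have hne : 1 ≤ (x.length + 2) ^ e := Nat.one_le_pow _ _ (by omega)
  have hG1 : 1 ≤ 2 * Sel.sN M c.c x * (T + 1) := Nat.mul_pos (by omega) (Nat.succ_pos _)
  have hW1 : 1 ≤ W := by rw [hWd]; exact Nat.mul_pos hG1 hne
  have hWG : 2 * Sel.sN M c.c x * (T + 1) ≤ W := by
    rw [hWd]; exact Nat.le_mul_of_pos_right _ hne
  have hWn : (x.length + 2) ^ e ≤ W := by
    rw [hWd]; exact Nat.le_mul_of_pos_left _ hG1
  have hT1 : T + 1 ≤ 2 ^ (Sel.sh M c0 x + 1) := by
    have h1 : T ≤ 2 ^ Sel.sh M c0 x := by rw [hTd]; exact (min_le_right _ _).trans hsT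
    have h2 : 1 ≤ 2 ^ Sel.sh M c0 x := Nat.one_le_two_pow
    rw [pow_succ]
    omega
  have hWle : W ≤ 2 ^ (2 + (2 + e) * Sel.sh M c0 x) := by
    rw [hWd]
    calc 2 * Sel.sN M c.c x * (T + 1) * (x.length + 2) ^ e
        ≤ 2 * 2 ^ Sel.sh M c0 x * 2 ^ (Sel.sh M c0 x + 1) * (2 ^ Sel.sh M c0 x) ^ e := by
          exact Nat.mul_le_mul (Nat.mul_le_mul (Nat.mul_le_mul_left _ hN2) hT1)
            (Nat.pow_le_pow_left hn2x e)
      _ = 2 ^ (2 + (2 + e) * Sel.sh M c0 x) := by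
          rw [← pow_mul, ← pow_succ', ← pow_add, ← pow_add]
          congr 1
          ring
  have hrkK := rkK_le (M := M) (c := c) x
  have cn : Cnd M c T W x := by
    refine ⟨hW1, ?_, ?_⟩
    · apply T_ok
      calc 2 * T ≤ 2 ^ 5 * 2 ^ lax M c x := Nat.mul_le_mul (by norm_num) hTlax
        _ = 2 ^ (lax M c x + 5) := by rw [← pow_add, add_comm]
    · calc 8 * 2 ^ ((parx M c x).rk * (parx M c x).K) * W ^ 2
          ≤ 2 ^ 3 * 2 ^ (2 * lax M c x + 6) * (2 ^ (2 + (2 + e) * Sel.sh M c0 x)) ^ 2 := by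
            refine Nat.mul_le_mul (Nat.mul_le_mul (by norm_num) (PP.pow_mono hrkK)) ?_
            exact Nat.pow_le_pow_left hWle 2
        _ = 2 ^ (3 + (2 * lax M c x + 6) + (2 + (2 + e) * Sel.sh M c0 x) * 2) := by
            rw [← pow_mul, ← pow_add, ← pow_add]
        _ ≤ 2 ^ hh M c x := by
            apply PP.pow_mono
            rw [hhe, hK0]
            have h2 : (10 * c0 + 2 * e + t + a + r + 20 + 1) * Sel.sh M c0 x =
              10 * (c0 * Sel.sh M c0 x) + 2 * (e * Sel.sh M c0 x) +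
                (t + a + r) * Sel.sh M c0 x + 21 * Sel.sh M c0 x := by ring
            have h3 : (2 + e) * Sel.sh M c0 x = 2 * Sel.sh M c0 x + e * Sel.sh M c0 x := by ring
            rw [h2, h3]
            omega
  have hFG : 16 * 2 ^ ((parx M c x).rk * (parx M c x).K) * (Sel.sN M c.c x * (T + 1)) ≤
      2 ^ Bq x := by
    calc 16 * 2 ^ ((parx M c x).rk * (parx M c x).K) * (Sel.sN M c.c x * (T + 1)) ≤
          2 ^ 4 * 2 ^ (2 * lax M c x + 6) * (2 ^ Sel.sh M c0 x * 2 ^ (Sel.sh M c0 x + 1)) :=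
          Nat.mul_le_mul (Nat.mul_le_mul (by norm_num) (PP.pow_mono hrkK))
            (Nat.mul_le_mul hN2 hT1)
      _ = 2 ^ (4 + (2 * lax M c x + 6) + (Sel.sh M c0 x + (Sel.sh M c0 x + 1))) := by
          rw [← pow_add, ← pow_add, ← pow_add]
      _ ≤ 2 ^ Bq x := by
          apply PP.pow_mono
          show _ ≤ (4 * c0 + 2) * Sel.sh M c0 x + 11
          have h2 : (4 * c0 + 2) * Sel.sh M c0 x =
            4 * (c0 * Sel.sh M c0 x) + 2 * Sel.sh M c0 x := by ring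
          rw [h2]
          omega
  -- the probability
  have hch := CT.chain_ok hMc x (n_ge (M := M) (c := c) x)
  have hpr := CT.chain_prob hMc x
  have hcs : csx M c x = M.cs x (Sel.sW M c.c x) (Sel.sT c.c x) := rfl
  have hst : stx M c x = M.startN x (Sel.sW M c.c x) (Sel.sT c.c x) := rfl
  have hpT : hit (csx M c x) 0 T (stx M c x) =
      M.probAt x true ((x.length + 2) ^ c0) 0 M.init := by
    have h1 := CT.chain_few hMc x (fun v => hcoin x v) 0
    rw [hpr, CT.hitR_eq, ← hcs, ← hst] at h1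
    rw [hTd]
    exact_mod_cast h1
  set pr : ℚ := M.probAt x true ((x.length + 2) ^ c0) 0 M.init with hprd
  have hpr0 : 0 ≤ pr := by rw [← hpT]; exact hit_nonneg _ _ _
  have hpr1 : pr ≤ 1 := by
    rw [← hpT]
    have h1 := CT.hit_total_le (csx M c x) T (stx M c x)
    have h2 : 0 ≤ hit (csx M c x) 1 T (stx M c x) := hit_nonneg _ _ _
    linarith
  obtain ⟨n, hn⟩ : ∃ n : ℚ, n = (x.length : ℚ) + 2 := ⟨_, rfl⟩
  have hn2q : 2 ≤ n := by
    have : (0 : ℚ) ≤ (x.length : ℚ) := Nat.cast_nonneg _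
    linarith
  have hn0 : 0 < n := by linarith
  have hn1 : 1 ≤ n := by linarith
  have hnc : ((x.length + 2 : ℕ) : ℚ) = n := by rw [hn]; push_cast; ring
  rw [← hn]
  have ht1 : 1 ≤ t := by omega
  have hLup : n ^ t ≤ 2 ^ Lt x := by
    have h1 : (x.length + 2) ^ t < 2 ^ (Nat.log 2 ((x.length + 2) ^ t) + 1) :=
      Nat.lt_pow_succ_log_self (by norm_num) _
    have h2 : (((x.length + 2) ^ t : ℕ) : ℚ) ≤
        ((2 ^ (Nat.log 2 ((x.length + 2) ^ t) + 1) : ℕ) : ℚ) := by exact_mod_cast h1.le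
    rw [Nat.cast_pow, hnc] at h2
    refine h2.trans (le_of_eq ?_)
    rw [Nat.cast_pow, Nat.cast_ofNat]
  have hLdn : (2 : ℚ) ^ Lt x ≤ 2 * n ^ (2 * a + 1) := by
    have h1 : 2 ^ Nat.log 2 ((x.length + 2) ^ t) ≤ (x.length + 2) ^ t :=
      Nat.pow_log_le_self 2 (pow_ne_zero _ (by omega))
    have h2 : ((2 ^ Nat.log 2 ((x.length + 2) ^ t) : ℕ) : ℚ) ≤ (((x.length + 2) ^ t : ℕ) : ℚ) := by
      exact_mod_cast h1
    rw [Nat.cast_pow, Nat.cast_pow, hnc, Nat.cast_ofNat, ht] at h2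
    show (2 : ℚ) ^ (Nat.log 2 ((x.length + 2) ^ t) + 1) ≤ _
    rw [pow_succ, ht, mul_comm]
    exact mul_le_mul_of_nonneg_left h2 (by norm_num)
  have hBn : (2 : ℚ) ^ Bq x ≤ n ^ β := by
    have h1 : Bq x ≤ Nat.log 2 (x.length + 2) * β := by
      have h2 : Bq x ≤ (4 * c0 + 5) * Sel.sh M c0 x := by
        show (4 * c0 + 2) * Sel.sh M c0 x + 11 ≤ _
        have : (4 * c0 + 5) * Sel.sh M c0 x =
          (4 * c0 + 2) * Sel.sh M c0 x + 3 * Sel.sh M c0 x := by ring
        omega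
      refine h2.trans ((Nat.mul_le_mul_left _ (hC x)).trans (le_of_eq ?_))
      rw [hβ]
      ring
    have h3 : 2 ^ Bq x ≤ (x.length + 2) ^ β := by
      calc 2 ^ Bq x ≤ 2 ^ (Nat.log 2 (x.length + 2) * β) := PP.pow_mono h1
        _ = (2 ^ Nat.log 2 (x.length + 2)) ^ β := by rw [pow_mul]
        _ ≤ _ := Nat.pow_le_pow_left (Nat.pow_log_le_self 2 (by omega)) _
    have h4 : ((2 ^ Bq x : ℕ) : ℚ) ≤ (((x.length + 2) ^ β : ℕ) : ℚ) := by exact_mod_cast h3
    rwa [Nat.cast_pow, Nat.cast_pow, hnc, Nat.cast_ofNat] at h4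
  have key : ∀ bb : Prop,
      (bb → 1 / n ^ (a * 2 ^ κ x) ≤ pr ^ r) →
      (¬ bb → pr ^ r < 1 / n ^ ((a + 1) * 2 ^ κ x + r * β)) →
      ∀ sd, GoodSd (parx M c x) (theSem (parx M c x)) (theTSem (parx M c x)) (csx M c x) sd →
      CT.Restores (CT.envS (Bx M c) (fun x => (parx M c x).q) (fun x => (parx M c x).L)
        (fun x j sd => statN (parx M c x) sd j) x sd) (progX M c) (topx M c x) ∧
      (rch (Sel.sN M c.c x * (cap x + 1)) (EP (Sel.sN M c.c x) (thrT M c x)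
        (2 ^ hh M c x - 1 + 1) (fun v u => CT.val (CT.envS (Bx M c)
        (fun x => (parx M c x).q) (fun x => (parx M c x).L)
        (fun x j sd => statN (parx M c x) sd j) x sd) (progX M c)
        (topx M c x) (qyS v u) (fun _ => 0))) (κ x - j) (stx M c x)
        (Sel.sN M c.c x * cap x) ↔ bb) := by
    intro bb hP1 hP2 sd hsd
    obtain ⟨hr', hv⟩ := good_all hMc x sd hsd
    refine ⟨hr', ?_⟩
    rw [Nat.sub_add_cancel (Nat.one_le_two_pow : 1 ≤ 2 ^ hh M c x)]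
    have hlt1 : stx M c x < Sel.sN M c.c x * (cap x + 1) :=
      lt_of_lt_of_le (hs0N x) (Nat.le_mul_of_pos_right _ (Nat.succ_pos _))
    have hlt2 : Sel.sN M c.c x * cap x < Sel.sN M c.c x * (cap x + 1) :=
      Nat.mul_lt_mul_of_pos_left (Nat.lt_succ_self _) hNpos
    have hcg : (rch (Sel.sN M c.c x * (cap x + 1)) (EP (Sel.sN M c.c x) (thrT M c x)
        (2 ^ hh M c x) (fun v u => CT.val (CT.envS (Bx M c)
        (fun x => (parx M c x).q) (fun x => (parx M c x).L)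
        (fun x j sd => statN (parx M c x) sd j) x sd) (progX M c)
        (topx M c x) (qyS v u) (fun _ => 0))) (κ x - j) (stx M c x)
        (Sel.sN M c.c x * cap x) ↔
        rch (Sel.sN M c.c x * (cap x + 1)) (EP (Sel.sN M c.c x) (thrT M c x)
        (2 ^ hh M c x) (gA M c x sd)) (κ x - j) (stx M c x) (Sel.sN M c.c x * cap x)) := by
      refine rch_congr (fun v' hv' u' hu' => ?_) (κ x - j) (stx M c x) hlt1 _ hlt2
      have hvm : v' % Sel.sN M c.c x < Sel.sN M c.c x := Nat.mod_lt _ hNpos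
      have hum : u' % Sel.sN M c.c x < Sel.sN M c.c x := Nat.mod_lt _ hNpos
      have h1 := hv (v' % Sel.sN M c.c x) (by rw [parx_n]; omega)
        (u' % Sel.sN M c.c x) (by rw [parx_n]; omega)
      have h2 : CT.val (CT.envS (Bx M c) (fun x => (parx M c x).q)
        (fun x => (parx M c x).L) (fun x j sd => statN (parx M c x) sd j) x sd) (progX M c)
        (topx M c x) (qyS (v' % Sel.sN M c.c x) (u' % Sel.sN M c.c x)) (fun _ => 0) =
        gA M c x sd (v' % Sel.sN M c.c x) (u' % Sel.sN M c.c x) := h1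
      unfold EP Qe
      beta_reduce
      rw [h2]
    rw [hcg]
    have hp := rch_prod (N := Sel.sN M c.c x) (thr := thrT M c x) (H := 2 ^ hh M c x)
      (cap := cap x) (g := gA M c x sd) (κ x - j) (stx M c x) (hs0N x) 0 hNpos 0
      (Nat.zero_le _) (cap x) le_rfl
    simp only [Nat.mul_zero, Nat.add_zero, Nat.zero_add, Nat.sub_zero] at hp
    rw [hp]
    by_cases hx : bb
    · refine iff_of_true ⟨Nat.zero_le _, ?_⟩ hx
      have hP := hP1 hx
      obtain ⟨m, hm1, hm2⟩ := rchm_complete hMc x sd (cap := cap x) cn hWG (i := κ x - j)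
        (hs0N x) (by
          rw [hpT]
          refine le_trans ?_ (hP.trans (pow_le_of_le_one hpr0 hpr1 (by omega)))
          have hW0 : (0 : ℚ) < W := by exact_mod_cast hW1
          have hWnq : n ^ e ≤ (W : ℚ) := by
            rw [← hnc]
            exact_mod_cast hWn
          have h2 : 1 / (W : ℚ) ≤ 1 := by
            rw [div_le_one hW0]
            exact_mod_cast hW1
          calc (1 / (W : ℚ)) ^ (2 ^ (κ x - j) + 1) ≤ (1 / (W : ℚ)) ^ (2 ^ (κ x - j)) :=
                pow_le_pow_of_le_one (by positivity) h2 (Nat.le_succ _)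
            _ ≤ (1 / n ^ e) ^ (2 ^ (κ x - j)) :=
                pow_le_pow_left₀ (by positivity)
                  (one_div_le_one_div_of_le (by positivity) hWnq) _
            _ = 1 / n ^ (e * 2 ^ (κ x - j)) := by rw [one_div_pow, ← pow_mul]
            _ ≤ 1 / n ^ (a * 2 ^ κ x) := by
                refine one_div_le_one_div_of_le (by positivity) (pow_le_pow_right₀ hn1 ?_)
                rw [he, mul_assoc, ← pow_add]
                exact Nat.mul_le_mul_left _ (PP.pow_mono (by omega)))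
      rw [hpT] at hm2
      refine rchm_mono (num_up hn0 hpr0 hr ht1 hP ?_ hLup) hm1
      have hGq : (1 : ℚ) ≤ (Sel.sN M c.c x : ℚ) * ((T : ℚ) + 1) := by
        have h1 : 1 ≤ Sel.sN M c.c x * (T + 1) := Nat.mul_pos hNpos (Nat.succ_pos _)
        exact_mod_cast h1
      have hFGq : (16 * 2 ^ ((parx M c x).rk * (parx M c x).K) *
          ((Sel.sN M c.c x : ℚ) * ((T : ℚ) + 1))) ≤ 2 ^ Bq x := by
        exact_mod_cast hFG
      calc pr * 2 ^ m ≤ pr * 2 ^ m * ((Sel.sN M c.c x : ℚ) * ((T : ℚ) + 1)) :=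
            le_mul_of_one_le_right (mul_nonneg hpr0 (by positivity)) hGq
        _ ≤ (16 * 2 ^ ((parx M c x).rk * (parx M c x).K) *
              ((Sel.sN M c.c x : ℚ) * ((T : ℚ) + 1))) ^ 2 ^ (κ x - j) := hm2
        _ ≤ (2 ^ Bq x) ^ 2 ^ (κ x - j) := pow_le_pow_left₀ (by positivity) hFGq _
        _ = 2 ^ (Bq x * 2 ^ (κ x - j)) := by rw [← pow_mul]
    · refine iff_of_false (fun h => ?_) hx
      obtain ⟨t', ht'⟩ := rchm_sound hMc x sd (hs0N x) hNpos h.2
      have h2 : (1 : ℚ) ≤ 2 ^ cap x * pr :=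
        ht'.trans (mul_le_mul_of_nonneg_left (hit_le_T hMc x t') (by positivity))
      have h3 : (1 : ℚ) ≤ 2 ^ (Bq x * 2 ^ (κ x - 2 * r * β) +
          Lt x * a * 2 ^ κ x / (r * (2 * a + 1))) * pr := by
        rw [← hj, ← ht]
        exact h2
      exact absurd (num_dn hn2q hpr0 h3 hBn hLdn) (not_le.2 (hP2 hx))
  have h4 := hcardX (M := M) (c := c) x
  have h5 := card_filter_add_card_filter_not (s := range (nSd (parx M c x)))
    (fun sd => GoodSd (parx M c x) (theSem (parx M c x)) (theTSem (parx M c x)) (csx M c x) sd)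
  rw [card_range] at h5
  have hnpos : 0 < nSd (parx M c x) := by
    unfold nSd
    exact Nat.mul_pos (Nat.pow_pos (D_pos' x)) (Nat.pow_pos (Q_pos' x))
  have fin : ∀ bb : Prop,
      (bb → 1 / n ^ (a * 2 ^ κ x) ≤ pr ^ r) →
      (¬ bb → pr ^ r < 1 / n ^ ((a + 1) * 2 ^ κ x + r * β)) →
      (x ∈ A ↔ bb) := by
    intro bb hP1 hP2
    refine hA x bb ?_
    have h6 := card_le_card (s := (range (nSd (parx M c x))).filter fun sd =>
        GoodSd (parx M c x) (theSem (parx M c x)) (theTSem (parx M c x)) (csx M c x) sd)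
      (t := (range (nSd (parx M c x))).filter fun s => CT.Restores (CT.envS (Bx M c)
        (fun x => (parx M c x).q) (fun x => (parx M c x).L)
        (fun x j sd => statN (parx M c x) sd j) x s) (progX M c) (topx M c x) ∧
      (rch (Sel.sN M c.c x * (cap x + 1)) (EP (Sel.sN M c.c x) (thrT M c x)
        (2 ^ hh M c x - 1 + 1) (fun v u => CT.val (CT.envS (Bx M c)
        (fun x => (parx M c x).q) (fun x => (parx M c x).L)
        (fun x j sd => statN (parx M c x) sd j) x s) (progX M c)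
        (topx M c x) (qyS v u) (fun _ => 0))) (κ x - j) (stx M c x)
        (Sel.sN M c.c x * cap x) ↔ bb)) (fun sd hsd => by
        rw [mem_filter] at hsd ⊢
        exact ⟨hsd.1, key bb hP1 hP2 sd hsd.2⟩)
    have h7 : nSd (parx M c x) <
        2 * ((range (nSd (parx M c x))).filter fun sd =>
        GoodSd (parx M c x) (theSem (parx M c x)) (theTSem (parx M c x)) (csx M c x) sd).card := by
      omega
    exact h7.trans_le (Nat.mul_le_mul_left 2 h6)
  exact ⟨fun h => (fin True (fun _ => h) (fun h' => absurd trivial h')).2 trivial,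
    fun h hx => (fin False (fun h' => h'.elim) (fun _ => h)).1 hx⟩

end Vale.Agent.P313.H947
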