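import Vale.Agent.P313.H947.Sharp
import Vale.Agent.P313.H947.Fin

/-!
The final statements with sharp thresholds.
-/

namespace Vale.Agent.P313.H947

open Finset H427L ZL SV
open H427 (one_le_logb one_le_logb2 natLog_le_logb)

/-- Probabilities are multiples of `2 ^ (-c)`. -/
theorem hit_gran (cs : ℕ → Bool → ℕ) (u : ℕ) : ∀ c v, ∃ k : ℕ, hit cs u c v * 2 ^ c = k := by
  intro c
  induction c with
  | zero =>
    intro v
    have e : hit cs u 0 v = if v = u then 1 else 0 := rfl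
    rw [e]
    split_ifs
    · exact ⟨1, by norm_num⟩
    · exact ⟨0, by norm_num⟩
  | succ c ih =>
    intro v
    obtain ⟨k0, h0⟩ := ih (cs v false)
    obtain ⟨k1, h1⟩ := ih (cs v true)
    have e : hit cs u (c + 1) v = (hit cs u c (cs v false) + hit cs u c (cs v true)) / 2 := rfl
    refine ⟨k0 + k1, ?_⟩
    rw [e, pow_succ]
    push_cast
    rw [← h0, ← h1]
    ring

/-- A positive probability is not too small. -/
theorem prob_gran {M : RTM} {c0 : ℕ}
    (hM : M.Bounded (fun n => (n + 2) ^ c0) (fun n => c0 * Nat.log 2 (n + 2))) (x : List Bool)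
    (h : 0 < M.probAt x true ((x.length + 2) ^ c0) 0 M.init) :
    1 / 2 ^ (2 ^ (c0 * (Nat.log 2 (x.length + 2) + 1))) ≤
      M.probAt x true ((x.length + 2) ^ c0) 0 M.init := by
  have hpr := CT.chain_prob hM x
  rw [CT.hitR_eq] at hpr
  have hpr' : hit (M.cs x (Sel.sW M c0 x) (Sel.sT c0 x)) 0 (Sel.sT c0 x)
      (M.startN x (Sel.sW M c0 x) (Sel.sT c0 x)) =
      M.probAt x true ((x.length + 2) ^ c0) 0 M.init := by exact_mod_cast hpr
  obtain ⟨k, hk⟩ := hit_gran (M.cs x (Sel.sW M c0 x) (Sel.sT c0 x)) 0 (Sel.sT c0 x)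
    (M.startN x (Sel.sW M c0 x) (Sel.sT c0 x))
  rw [hpr'] at hk
  obtain ⟨pr, hp⟩ : ∃ pr, pr = M.probAt x true ((x.length + 2) ^ c0) 0 M.init := ⟨_, rfl⟩
  rw [← hp] at h hk ⊢
  have h2 : (0 : ℚ) < 2 ^ Sel.sT c0 x := by positivity
  have h3 : (0 : ℚ) < k := by rw [← hk]; exact mul_pos h h2
  have h4 : (1 : ℚ) ≤ k := by
    have : 0 < k := by exact_mod_cast h3
    exact_mod_cast this
  have h5 : 1 / (2 : ℚ) ^ Sel.sT c0 x ≤ pr := by
    rw [div_le_iff₀ h2, hk]
    exact h4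
  refine le_trans (one_div_le_one_div_of_le h2 (pow_le_pow_right₀ (by norm_num) ?_)) h5
  exact T_le_log c0 x

/-- THE GENERAL THEOREM. -/
theorem decides_sharp {M : RTM} {c0 : ℕ}
    (hM : M.Bounded (fun n => (n + 2) ^ c0) (fun n => c0 * Nat.log 2 (n + 2)))
    {lam : List Bool → ℕ} (hlam : Sel.LFx lam)
    (hcoin : ∀ (x : List Bool) (v : Bool),
      M.probAt x v ((x.length + 2) ^ c0) (2 ^ lam x + 1) M.init = 0)
    {la : ℕ → ℝ} (hla : ∀ x, (lam x : ℝ) ≤ la x.length) (hla0 : ∀ n, 0 ≤ la n)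
    {C : ℕ} (hC : ∀ x : List Bool, Sel.sh M c0 x ≤ C * Nat.log 2 (x.length + 2))
    (a r : ℕ) (hr : 1 ≤ r) {κ : List Bool → ℕ} (hκ : Sel.LFx κ)
    {S : ℕ → ℝ} (hS : ∀ n, spl la n ≤ S n) {c2 : ℕ}
    (hκS : ∀ x, ((κ x * Nat.log 2 (x.length + 2) : ℕ) : ℝ) ≤ c2 * S x.length + c2) :
    ∃ (A : Set (List Bool)) (D : RTM) (e' : ℕ),
      D.Decides A (fun n => (2 : ℝ) ^ (e' * S n + e')) (fun n => e' * S n + e') ∧
      ∀ x : List Bool,
        (1 / ((x.length : ℚ) + 2) ^ (a * 2 ^ κ x) ≤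
          M.probAt x true ((x.length + 2) ^ c0) 0 M.init ^ r → x ∈ A) ∧
        (M.probAt x true ((x.length + 2) ^ c0) 0 M.init ^ r <
          1 / ((x.length : ℚ) + 2) ^ ((a + 1) * 2 ^ κ x + r * ((4 * c0 + 5) * C)) → x ∉ A) := by
  have hbd : Sel.LFx (fun x => c0 * (Nat.log 2 (x.length + 2) + 1) + r) :=
    (LF.mul (LF.const c0) (LF.log2 (LF.len.add (LF.const 2))).succ).add (LF.const r)
  obtain ⟨A, D, e', hD, hA⟩ := decides_sharp0 hM hlam hcoin hla hla0 hC a r hr
    (κ := fun x => min (κ x) (c0 * (Nat.log 2 (x.length + 2) + 1) + r)) (LF.min hκ hbd)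
    (fun x => min_le_right _ _) hS (c2 := c2) (fun x => by
      refine le_trans ?_ (hκS x)
      have : min (κ x) (c0 * (Nat.log 2 (x.length + 2) + 1) + r) * Nat.log 2 (x.length + 2) ≤
        κ x * Nat.log 2 (x.length + 2) := Nat.mul_le_mul_right _ (min_le_left _ _)
      exact_mod_cast this)
  refine ⟨A, D, e', hD, fun x => ⟨fun h => (hA x).1 ?_, fun h => (hA x).2 (lt_of_lt_of_le h ?_)⟩⟩
  · obtain ⟨pr, hp⟩ : ∃ pr, pr = M.probAt x true ((x.length + 2) ^ c0) 0 M.init := ⟨_, rfl⟩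
    have hgr := prob_gran hM x
    rw [← hp] at h hgr ⊢
    obtain ⟨n, hn⟩ : ∃ n : ℚ, n = (x.length : ℚ) + 2 := ⟨_, rfl⟩
    rw [← hn] at h ⊢
    have hn2 : 2 ≤ n := by
      have : (0 : ℚ) ≤ (x.length : ℚ) := Nat.cast_nonneg _
      linarith
    have hn0 : 0 < n := by linarith
    show 1 / n ^ (a * 2 ^ min (κ x) (c0 * (Nat.log 2 (x.length + 2) + 1) + r)) ≤ pr ^ r
    rcases le_total (κ x) (c0 * (Nat.log 2 (x.length + 2) + 1) + r) with h1 | h1
    · rw [min_eq_left h1]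
      exact h
    · rw [min_eq_right h1]
      rcases Nat.eq_zero_or_pos a with h2 | h2
      · rw [h2, Nat.zero_mul] at h ⊢
        exact h
      · have h3 : 0 < pr ^ r := lt_of_lt_of_le (by positivity) h
        have hpr0 : 0 ≤ pr := by
          have h4 := CT.chain_prob hM x
          rw [CT.hitR_eq] at h4
          have h5 : hit (M.cs x (Sel.sW M c0 x) (Sel.sT c0 x)) 0 (Sel.sT c0 x)
              (M.startN x (Sel.sW M c0 x) (Sel.sT c0 x)) = pr := by
            rw [hp]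
            exact_mod_cast h4
          rw [← h5]
          exact hit_nonneg _ _ _
        have h4 : 0 < pr := by
          rcases hpr0.lt_or_eq with h5 | h5
          · exact h5
          · exfalso
            rw [← h5, zero_pow (by omega)] at h3
            exact lt_irrefl _ h3
        have h5 := pow_le_pow_left₀ (by positivity) (hgr h4) r
        refine le_trans ?_ h5
        rw [one_div_pow, ← pow_mul]
        refine one_div_le_one_div_of_le (by positivity) ?_
        calc (2 : ℚ) ^ (2 ^ (c0 * (Nat.log 2 (x.length + 2) + 1)) * r) ≤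
              2 ^ (a * 2 ^ (c0 * (Nat.log 2 (x.length + 2) + 1) + r)) := by
              refine pow_le_pow_right₀ (by norm_num) ?_
              rw [pow_add]
              calc 2 ^ (c0 * (Nat.log 2 (x.length + 2) + 1)) * r ≤
                    2 ^ (c0 * (Nat.log 2 (x.length + 2) + 1)) * 2 ^ r :=
                    Nat.mul_le_mul_left _ (Nat.lt_two_pow_self).le
                _ ≤ _ := Nat.le_mul_of_pos_left _ h2
          _ ≤ n ^ (a * 2 ^ (c0 * (Nat.log 2 (x.length + 2) + 1) + r)) :=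
              pow_le_pow_left₀ (by norm_num) hn2 _
  · have hn1 : (1 : ℚ) ≤ (x.length : ℚ) + 2 := by
      have : (0 : ℚ) ≤ (x.length : ℚ) := Nat.cast_nonneg _
      linarith
    refine one_div_le_one_div_of_le (by positivity) (pow_le_pow_right₀ hn1 ?_)
    refine Nat.add_le_add_right (Nat.mul_le_mul_left _ ?_) _
    exact Nat.pow_le_pow_right (by norm_num) (min_le_left _ _)

/-- Few coins, constructible exponent, sharp thresholds. -/
theorem sharpK_few (M : RTM) (c : ℕ)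
    (hM : M.Bounded (fun n => (n + 2) ^ c) (fun n => c * Nat.log 2 (n + 2))) :
    ∃ b : ℕ, ∀ (κ lam : ℕ → ℕ), Sel.LFx (fun x => κ x.length) →
      Sel.LFx (fun x => lam x.length) →
      (∀ (x : List Bool) (v : Bool),
        M.probAt x v ((x.length + 2) ^ c) (2 ^ lam x.length + 1) M.init = 0) →
      ∀ (a r : ℕ), 1 ≤ r →
      ∃ (A : Set (List Bool)) (D : RTM) (C : ℝ),
        D.Decides A
          (fun n => (2 : ℝ) ^ (C * (Real.logb 2 (n + 2) * (Rl lam n + κ n))))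
          (fun n => C * (Real.logb 2 (n + 2) * (Rl lam n + κ n))) ∧
        ∀ x : List Bool,
          (1 / ((x.length : ℚ) + 2) ^ (a * 2 ^ κ x.length) ≤
            M.probAt x true ((x.length + 2) ^ c) 0 M.init ^ r → x ∈ A) ∧
          (M.probAt x true ((x.length + 2) ^ c) 0 M.init ^ r <
            1 / ((x.length : ℚ) + 2) ^ ((a + 1) * 2 ^ κ x.length + r * b) → x ∉ A) := by
  obtain ⟨C, -, hC⟩ := Sel.sh_le (M := M) (c := c)
  refine ⟨(4 * c + 5) * C, fun κ lam hκ hlam hcoin a r hr => ?_⟩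
  have hS1 : ∀ n : ℕ, 1 ≤ Real.logb 2 ((n : ℝ) + 2) * (Rl lam n + κ n) := by
    intro n
    have h1 := one_le_logb n
    have h2 := one_le_Rl lam n
    have h3 : (0 : ℝ) ≤ κ n := Nat.cast_nonneg _
    nlinarith
  obtain ⟨A, D, e', hD, hA⟩ := decides_sharp hM hlam hcoin
    (la := fun n => (lam n : ℝ)) (fun x => le_rfl) (fun n => Nat.cast_nonneg _) hC a r hr hκ
    (S := fun n => Real.logb 2 ((n : ℝ) + 2) * (Rl lam n + κ n)) (fun n => by
      rw [spl_eq]
      have h1 := one_le_logb n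
      have h3 : (0 : ℝ) ≤ κ n := Nat.cast_nonneg _
      exact mul_le_mul_of_nonneg_left (by linarith) (by linarith)) (c2 := 1) (fun x => by
      have h1 := one_le_logb x.length
      have h2 := one_le_Rl lam x.length
      have h3 : (0 : ℝ) ≤ κ x.length := Nat.cast_nonneg _
      have h5 := natLog_le_logb (x.length + 2) (by omega)
      push_cast at h5 ⊢
      nlinarith [mul_le_mul_of_nonneg_left h5 h3])
  exact ⟨A, D, 2 * e' * 1, decides_clean hD hS1 (C := 1) (fun n => by rw [one_mul]), hA⟩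

/-- All coins, constructible exponent, sharp thresholds. -/
theorem sharpK_all (M : RTM) (c : ℕ)
    (hM : M.Bounded (fun n => (n + 2) ^ c) (fun n => c * Nat.log 2 (n + 2))) :
    ∃ b : ℕ, ∀ (κ : ℕ → ℕ), Sel.LFx (fun x => κ x.length) → ∀ (a r : ℕ), 1 ≤ r →
      ∃ (A : Set (List Bool)) (D : RTM) (C : ℝ),
        D.Decides A
          (fun n => (2 : ℝ) ^ (C * (Real.logb 2 (n + 2) ^ ((4 : ℝ) / 3) *
            Real.logb 2 (Real.logb 2 (n + 2) + 1) ^ ((2 : ℝ) / 3) + κ n * Real.logb 2 (n + 2))))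
          (fun n => C * (Real.logb 2 (n + 2) ^ ((4 : ℝ) / 3) *
            Real.logb 2 (Real.logb 2 (n + 2) + 1) ^ ((2 : ℝ) / 3) + κ n * Real.logb 2 (n + 2))) ∧
        ∀ x : List Bool,
          (1 / ((x.length : ℚ) + 2) ^ (a * 2 ^ κ x.length) ≤
            M.probAt x true ((x.length + 2) ^ c) 0 M.init ^ r → x ∈ A) ∧
          (M.probAt x true ((x.length + 2) ^ c) 0 M.init ^ r <
            1 / ((x.length : ℚ) + 2) ^ ((a + 1) * 2 ^ κ x.length + r * b) → x ∉ A) := by
  obtain ⟨C, -, hC⟩ := Sel.sh_le (M := M) (c := c)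
  refine ⟨(4 * c + 5) * C, fun κ hκ a r hr => ?_⟩
  have hlam : Sel.LFx (fun x => c * (Nat.log 2 (x.length + 2) + 1)) :=
    LF.mul (LF.const c) (LF.log2 (LF.len.add (LF.const 2))).succ
  obtain ⟨C', hC'⟩ := spl_le c
  have hspl1 : ∀ n, 1 ≤ spl (fun n => ((c * (Nat.log 2 (n + 2) + 1) : ℕ) : ℝ)) n :=
    fun n => one_le_spl n (Nat.cast_nonneg _)
  have hκL : ∀ n : ℕ, 0 ≤ (κ n : ℝ) * Real.logb 2 ((n : ℝ) + 2) := fun n =>
    mul_nonneg (Nat.cast_nonneg _) (by linarith [one_le_logb n])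
  obtain ⟨A, D, e', hD, hA⟩ := decides_sharp hM hlam (coins_all (fun x => le_rfl))
    (la := fun n => ((c * (Nat.log 2 (n + 2) + 1) : ℕ) : ℝ)) (fun x => le_rfl)
    (fun n => Nat.cast_nonneg _) hC a r hr hκ
    (S := fun n => spl (fun n => ((c * (Nat.log 2 (n + 2) + 1) : ℕ) : ℝ)) n +
      κ n * Real.logb 2 ((n : ℝ) + 2)) (fun n => by linarith [hκL n]) (c2 := 1) (fun x => by
      have h1 := hspl1 x.length
      have h3 : (0 : ℝ) ≤ κ x.length := Nat.cast_nonneg _
      have h5 := natLog_le_logb (x.length + 2) (by omega)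
      have h6 := mul_le_mul_of_nonneg_left h5 h3
      have h7 : ((κ x.length * Nat.log 2 (x.length + 2) : ℕ) : ℝ) ≤
          κ x.length * Real.logb 2 ((x.length : ℝ) + 2) := by
        push_cast at h6 ⊢
        exact h6
      refine h7.trans ?_
      rw [Nat.cast_one, one_mul]
      linarith)
  refine ⟨A, D, 2 * e' * max C' 1, decides_clean (S' := fun n =>
    Real.logb 2 ((n : ℝ) + 2) ^ ((4 : ℝ) / 3) *
      Real.logb 2 (Real.logb 2 ((n : ℝ) + 2) + 1) ^ ((2 : ℝ) / 3) +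
      κ n * Real.logb 2 ((n : ℝ) + 2)) hD (fun n => by linarith [hspl1 n, hκL n])
    (C := max C' 1) (fun n => ?_), hA⟩
  have h1 := hC' n
  have h2 : 0 ≤ H427.sp n := by
    unfold H427.sp
    exact mul_nonneg (Real.rpow_nonneg (by linarith [one_le_logb n]) _)
      (Real.rpow_nonneg (by linarith [one_le_logb2 n]) _)
  have h3 : C' * H427.sp n ≤ max C' 1 * H427.sp n :=
    mul_le_mul_of_nonneg_right (le_max_left _ _) h2
  have h4 : 1 * ((κ n : ℝ) * Real.logb 2 ((n : ℝ) + 2)) ≤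
      max C' 1 * ((κ n : ℝ) * Real.logb 2 ((n : ℝ) + 2)) :=
    mul_le_mul_of_nonneg_right (le_max_right _ _) (hκL n)
  have e1 : max C' 1 * (Real.logb 2 ((n : ℝ) + 2) ^ ((4 : ℝ) / 3) *
      Real.logb 2 (Real.logb 2 ((n : ℝ) + 2) + 1) ^ ((2 : ℝ) / 3) +
      κ n * Real.logb 2 ((n : ℝ) + 2)) = max C' 1 * H427.sp n +
      max C' 1 * ((κ n : ℝ) * Real.logb 2 ((n : ℝ) + 2)) := by
    unfold H427.sp
    ring
  rw [e1]
  linarith

end Vale.Agent.P313.H947
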