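import Vale.Agent.P313.H974.Value

/-!
The stopped law between two arbitrary states, and the entries of the last canonical matrix.
-/

namespace Vale.Agent.P313.H947

open Finset Matrix Vale.Agent.P313.BP H974

variable {p : Par}

/-- The stopped law as a function of numbers. -/
noncomputable def xN (p : Par) (cs : ℕ → Bool → ℕ) (α : Fin p.n → ℝ) (u : Fin p.n) (v : ℕ) : ℝ :=
  if h : v < p.n then stopLaw (Mc p cs) α ⟨v, h⟩ u else 0

section

variable {cs : ℕ → Bool → ℕ} (hcs : ∀ v, v + 1 < p.n → ∀ b, cs v b + 1 < p.n)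
    {α : Fin p.n → ℝ} {a0 a : ℝ} (ha0 : 0 < a0) (hα : ∀ x, a0 ≤ α x) (hα1 : ∀ x, α x ≤ 1)
    (hR : ∀ x : Fin p.n, (x : ℕ) + 1 < p.n → α x = a)
include hcs ha0 hα hα1 hR

/-- The first step. -/
theorem xN_rec (u : Fin p.n) {v : ℕ} (hv : v + 1 < p.n) :
    xN p cs α u v = (((if cs v false = (u : ℕ) then a else 0) + (1 - a) * xN p cs α u (cs v false)) +
      ((if cs v true = (u : ℕ) then a else 0) + (1 - a) * xN p cs α u (cs v true))) / 2 := by
  classical
  have hM := Sto_Mc (p := p) hcs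
  have heq := stopLaw_eq hM ha0 hα hα1
  have hv' : v < p.n := by omega
  have h0 := hcs v hv false
  have h1 := hcs v hv true
  have h0' : cs v false < p.n := by omega
  have h1' : cs v true < p.n := by omega
  unfold xN
  rw [dif_pos hv', dif_pos h0', dif_pos h1']
  set X := stopLaw (Mc p cs) α with hX
  have happ : X ⟨v, hv'⟩ u = Mc p cs ⟨v, hv'⟩ u * α u +
      ∑ x, Mc p cs ⟨v, hv'⟩ x * (1 - α x) * X x u := by
    have := congrFun (congrFun heq ⟨v, hv'⟩) u
    rw [Matrix.add_apply, mul_diagonal_apply', Matrix.mul_apply] at this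
    simp only [mul_diagonal_apply'] at this
    exact this
  have e1 : Mc p cs ⟨v, hv'⟩ u * α u = ∑ x, Mc p cs ⟨v, hv'⟩ x * (if x = u then α x else 0) := by
    simp
  rw [happ, e1, ← sum_add_distrib]
  have e2 : ∀ x : Fin p.n, Mc p cs ⟨v, hv'⟩ x * (if x = u then α x else 0) +
      Mc p cs ⟨v, hv'⟩ x * (1 - α x) * X x u =
      ((if (⟨cs v false, h0'⟩ : Fin p.n) = x then
        ((if x = u then α x else 0) + (1 - α x) * X x u) else 0) +
      (if (⟨cs v true, h1'⟩ : Fin p.n) = x then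
        ((if x = u then α x else 0) + (1 - α x) * X x u) else 0)) / 2 := by
    intro x
    have e3 : Mc p cs ⟨v, hv'⟩ x = ((if (⟨cs v false, h0'⟩ : Fin p.n) = x then 1 else 0) +
        (if (⟨cs v true, h1'⟩ : Fin p.n) = x then 1 else 0)) / 2 := by
      unfold Mc
      rw [if_pos hv]
      simp only [Fin.ext_iff]
    rw [e3]
    split_ifs <;> ring
  rw [sum_congr rfl (fun x _ => e2 x), ← sum_div, sum_add_distrib, sum_ite_eq, sum_ite_eq,
    if_pos (mem_univ _), if_pos (mem_univ _), hR _ h0, hR _ h1]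
  simp only [Fin.ext_iff]

theorem xN_nonneg (u : Fin p.n) (v : ℕ) : 0 ≤ xN p cs α u v := by
  unfold xN
  split_ifs with h
  · exact ((Sto_Mc (p := p) hcs).stopLaw ha0 hα hα1).nn _ _
  · exact le_rfl

theorem xN_le_one (u : Fin p.n) (v : ℕ) : xN p cs α u v ≤ 1 := by
  unfold xN
  split_ifs with h
  · have hN := (Sto_Mc (p := p) hcs).stopLaw ha0 hα hα1
    rw [← hN.row ⟨v, h⟩]
    exact single_le_sum (f := fun x => stopLaw (Mc p cs) α ⟨v, h⟩ x) (fun x _ => hN.nn _ x)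
      (mem_univ u)
  · norm_num

/-- Lower bound. -/
theorem xN_ge (ha : 0 ≤ a) (ha1 : a ≤ 1) (u : Fin p.n) : ∀ (t : ℕ) {v : ℕ}, v + 1 < p.n →
    a * (1 - a) ^ t * hitR cs u (t + 1) v ≤ xN p cs α u v := by
  have h1a : 0 ≤ 1 - a := by linarith
  intro t
  induction t with
  | zero =>
    intro v hv
    rw [xN_rec hcs ha0 hα hα1 hR u hv]
    have n0 := mul_nonneg h1a (xN_nonneg hcs ha0 hα hα1 hR u (cs v false))
    have n1 := mul_nonneg h1a (xN_nonneg hcs ha0 hα hα1 hR u (cs v true))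
    simp only [hitR, pow_zero, mul_one]
    split_ifs <;> linarith
  | succ t ih =>
    intro v hv
    rw [xN_rec hcs ha0 hα hα1 hR u hv]
    have i0 := mul_le_mul_of_nonneg_left (ih (hcs v hv false)) h1a
    have i1 := mul_le_mul_of_nonneg_left (ih (hcs v hv true)) h1a
    have e : hitR cs u (t + 1 + 1) v =
        (hitR cs u (t + 1) (cs v false) + hitR cs u (t + 1) (cs v true)) / 2 := rfl
    have c0 : (0 : ℝ) ≤ (if cs v false = (u : ℕ) then a else 0) := by split_ifs <;> linarith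
    have c1 : (0 : ℝ) ≤ (if cs v true = (u : ℕ) then a else 0) := by split_ifs <;> linarith
    rw [e, pow_succ]
    have e2 : a * ((1 - a) ^ t * (1 - a)) *
        ((hitR cs u (t + 1) (cs v false) + hitR cs u (t + 1) (cs v true)) / 2) =
        ((1 - a) * (a * (1 - a) ^ t * hitR cs u (t + 1) (cs v false)) +
          (1 - a) * (a * (1 - a) ^ t * hitR cs u (t + 1) (cs v true))) / 2 := by ring
    rw [e2]
    linarith

/-- Upper bound. -/
theorem xN_le (ha : 0 ≤ a) (ha1 : a ≤ 1) (u : Fin p.n) : ∀ (k : ℕ) {v : ℕ}, v + 1 < p.n →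
    xN p cs α u v ≤ ∑ t ∈ range k, a * (1 - a) ^ t * hitR cs u (t + 1) v + (1 - a) ^ k := by
  have h1a : 0 ≤ 1 - a := by linarith
  intro k
  induction k with
  | zero =>
    intro v hv
    simp only [range_zero, sum_empty, pow_zero, zero_add]
    exact xN_le_one hcs ha0 hα hα1 hR u v
  | succ k ih =>
    intro v hv
    rw [xN_rec hcs ha0 hα hα1 hR u hv]
    have i0 := mul_le_mul_of_nonneg_left (ih (hcs v hv false)) h1a
    have i1 := mul_le_mul_of_nonneg_left (ih (hcs v hv true)) h1a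
    have e : ∑ t ∈ range (k + 1), a * (1 - a) ^ t * hitR cs u (t + 1) v =
        ((if cs v false = (u : ℕ) then a else 0) + (if cs v true = (u : ℕ) then a else 0)) / 2 +
        ((1 - a) * ∑ t ∈ range k, a * (1 - a) ^ t * hitR cs u (t + 1) (cs v false) +
          (1 - a) * ∑ t ∈ range k, a * (1 - a) ^ t * hitR cs u (t + 1) (cs v true)) / 2 := by
      rw [sum_range_succ', add_comm]
      congr 1
      · simp only [hitR, pow_zero, mul_one]
        split_ifs <;> ring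
      · rw [mul_sum, mul_sum, ← sum_add_distrib, sum_div]
        refine sum_congr rfl fun t _ => ?_
        have e : hitR cs u (t + 1 + 1) v =
          (hitR cs u (t + 1) (cs v false) + hitR cs u (t + 1) (cs v true)) / 2 := rfl
        rw [e, pow_succ]
        ring
    rw [e, pow_succ]
    linarith

/-- A large entry comes from a large probability. -/
theorem hit_of_xN (ha : 0 < a) (ha1 : a ≤ 1) (u : Fin p.n) {v : ℕ} (hv : v + 1 < p.n) {δ : ℝ}
    (h : δ < xN p cs α u v) : ∃ t, δ ≤ hitR cs u (t + 1) v := by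
  by_contra hcon
  push Not at hcon
  have h1a : 0 ≤ 1 - a := by linarith
  have h1a' : 1 - a < 1 := by linarith
  obtain ⟨k, hk⟩ := exists_pow_lt_of_lt_one (sub_pos.2 h) h1a'
  have h1 := xN_le hcs ha0 hα hα1 hR ha.le ha1 u k hv
  have hδ : 0 ≤ δ := (hitR_mem cs u 1 v).1.trans (hcon 0).le
  have h2 : ∑ t ∈ range k, a * (1 - a) ^ t * hitR cs u (t + 1) v ≤
      ∑ t ∈ range k, a * (1 - a) ^ t * δ := by
    refine sum_le_sum fun t _ => mul_le_mul_of_nonneg_left (hcon t).le ?_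
    exact mul_nonneg ha.le (pow_nonneg h1a _)
  have h3 : ∑ t ∈ range k, a * (1 - a) ^ t * δ = (1 - (1 - a) ^ k) * δ := by
    rw [← sum_mul, ← mul_sum]
    congr 1
    have h4 := mul_neg_geom_sum (1 - a) k
    have e : 1 - (1 - a) = a := by ring
    rw [e] at h4
    exact h4
  have h5 : 0 ≤ (1 - a) ^ k := pow_nonneg h1a _
  rw [h3] at h2
  nlinarith [mul_nonneg h5 hδ]

end

variable {S : Sem}

/-- The entries of the last canonical matrix. -/
theorem entry_lower (hp : NumOK p) (hS : SemOK p S) {cs : ℕ → Bool → ℕ} {o : ℕ → ℕ → ℕ}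
    (ho : Offs p o) (hcs : ∀ v, v + 1 < p.n → ∀ b, cs v b + 1 < p.n) {Sn E : ℕ} (hE : 0 < E)
    (hR : RunE p Sn E) {v u : ℕ} (hv : v + 1 < p.n) (hu : u + 1 < p.n) :
    (∀ t, ((1 / 2 : ℝ) ^ (p.rk * p.K)) * (1 - (1 / 2 : ℝ) ^ (p.rk * p.K)) ^ t *
        hitR cs u (t + 1) v - 1 / E ≤ ((data p S cs o Sn).A v u : ℝ) / (p.q : ℝ) ^ p.b) ∧
    (∀ δ : ℝ, δ + 1 / E < ((data p S cs o Sn).A v u : ℝ) / (p.q : ℝ) ^ p.b →
      ∃ t, δ ≤ hitR cs u (t + 1) v) := by
  obtain ⟨α, hα0, hα1, hαa, hclose⟩ := comp_closeE hp hS ho hcs hE hR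
  set a : ℝ := (1 / 2) ^ (p.rk * p.K) with ha
  have ha0 : 0 < a := by positivity
  have ha1 : a ≤ 1 := pow_le_one₀ (by norm_num) (by norm_num)
  have hα00 : (0 : ℝ) < (1 / 2 : ℝ) ^ (p.rk * Sn) := by positivity
  have hx : xN p cs α ⟨u, by omega⟩ v = stopLaw (Mc p cs) α ⟨v, by omega⟩ ⟨u, by omega⟩ := by
    unfold xN
    rw [dif_pos (show v < p.n by omega)]
  have h4 : |Nm p (data p S cs o Sn) ⟨v, by omega⟩ ⟨u, by omega⟩ -
      xN p cs α ⟨u, by omega⟩ v| ≤ 1 / E := by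
    rw [hx]
    exact hclose.entry _ _
  have e : Nm p (data p S cs o Sn) ⟨v, by omega⟩ ⟨u, by omega⟩ =
      ((data p S cs o Sn).A v u : ℝ) / (p.q : ℝ) ^ p.b := rfl
  rw [e] at h4
  have h5 := abs_le.1 h4
  refine ⟨fun t => ?_, fun δ hδ => ?_⟩
  · have h6 := xN_ge hcs hα00 hα0 hα1 hαa ha0.le ha1 ⟨u, by omega⟩ t hv
    have h7 : a * (1 - a) ^ t * hitR cs u (t + 1) v ≤ xN p cs α ⟨u, by omega⟩ v := h6
    linarith [h5.1]
  · exact hit_of_xN hcs hα00 hα0 hα1 hαa ha0 ha1 ⟨u, by omega⟩ hv (δ := δ) (by linarith [h5.2])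

end Vale.Agent.P313.H947
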