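import Vale.Agent.P313.H427L.Fin3
import Vale.Agent.P313.H947.Stop
import Vale.Agent.P313.H947.Asm

/-!
The entries of the last canonical matrix for a good seed: all of them are read by the program, and
they are above the threshold only if the transition probability is not too small.
-/

namespace Vale.Agent.P313.H947

open Finset BP H126 H427L ZL H644
open H427 (statN)

variable {M : RTM} {c : Cf}

/-- The threshold. -/
noncomputable def thrS (M : RTM) (c : Cf) (x : List Bool) : ℕ :=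
  (parx M c x).q ^ (parx M c x).b / 2 ^ hh M c x

/-- The queries of the top level. -/
def qyS (v u : ℕ) : ℕ := Nat.pair 0 (Nat.pair v u)

theorem lfx_thrS : Sel.LFx (thrS M c) :=
  LF.div ((lfx_powb (M := M) (c := c)).congr (fun x a => by simp only [parx, thePar]))
    (lfx_two_pow (M := M) (c := c) lfx_hh (d := 1) (fun x => by rw [one_mul]))

/-- All entries are read. -/
theorem good_all (hM : M.Bounded (fun n => (n + 2) ^ c.c) (fun n => c.c * Nat.log 2 (n + 2)))
    (x : List Bool) (sd : ℕ)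
    (h : GoodSd (parx M c x) (theSem (parx M c x)) (theTSem (parx M c x)) (csx M c x) sd) :
    CT.Restores (envx M c x sd) (progX M c) (topx M c x) ∧ ∀ v < (parx M c x).n,
      ∀ u < (parx M c x).n,
      CT.val (envx M c x sd) (progX M c) (topx M c x) (qyS v u) (fun _ => 0) =
        (data (parx M c x).toPar (theSem (parx M c x)) (csx M c x) (oSd (parx M c x) sd)
          (parx M c x).S).A v u := by
  have hy := hypX hM x h
  have hT := toursX hM x h
  have hcs : ∀ (V : CT.Orc) (t : Tp) (v : ℕ), v + 1 < (CX M c x sd).p.n →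
      csP M c (CT.inp (envx M c x sd) V t) v 0 = (CX M c x sd).cs v false ∧
      csP M c (CT.inp (envx M c x sd) V t) v 1 = (CX M c x sd).cs v true :=
    fun V t v _ => csP_eq x sd V t v
  have h1 := H899.master_psi (C := CX M c x sd) hy (num2X x sd) (num3X hM x sd) hT hcs
  refine ⟨h1.1, fun v hv u hu => ?_⟩
  exact H899.val_top (C := CX M c x sd) hy (num2X x sd) (num3X hM x sd) hT hcs
    (v := v) (x := u) (t := fun _ => 0) hv hu ⟨fun j _ => (q_prime x).pos, fun _ _ => rfl⟩

/-- The queries are small. -/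
theorem qyS_le (x : List Bool) {v u : ℕ} (hv : v < Sel.sN M c.c x) (hu : u < Sel.sN M c.c x) :
    qyS v u ≤ Bx M c x := by
  have h2 := n_le (M := M) (c := c) x
  have hpos := hh_pos (M := M) (c := c) x
  have hn : (parx M c x).n = Sel.sN M c.c x + 1 := parx_n x
  have h4 : Nat.pair v u ≤ (2 ^ hh M c x) ^ 2 :=
    (Z.pair_le_sq v u (2 ^ hh M c x - 1) (by omega) (by omega)).trans
      (Nat.pow_le_pow_left (by omega) 2)
  have h5 : qyS v u ≤ ((2 ^ hh M c x) ^ 2 + 1) ^ 2 := Z.pair_le_sq _ _ _ (Nat.zero_le _) h4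
  refine h5.trans ?_
  unfold Bx
  have h6 : (2 ^ hh M c x) ^ 2 + 1 ≤ 2 ^ (3 * hh M c x) := by
    have h7 : (2 ^ hh M c x) ^ 2 = 2 ^ (2 * hh M c x) := by rw [← pow_mul]; congr 1; ring
    have h8 : 2 ^ (3 * hh M c x) = 2 ^ (2 * hh M c x) * 2 ^ hh M c x := by
      rw [← pow_add]; congr 1; ring
    have h9 : 2 ≤ 2 ^ hh M c x := by
      calc 2 = 2 ^ 1 := (pow_one 2).symm
        _ ≤ 2 ^ hh M c x := PP.pow_mono hpos
    have h10 : 1 ≤ 2 ^ (2 * hh M c x) := Nat.one_le_two_pow
    rw [h7, h8]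
    nlinarith
  calc ((2 ^ hh M c x) ^ 2 + 1) ^ 2 ≤ (2 ^ (3 * hh M c x)) ^ 2 := Nat.pow_le_pow_left h6 2
    _ = 2 ^ (3 * hh M c x * 2) := by rw [← pow_mul]
    _ ≤ 2 ^ (cB * hh M c x) := PP.pow_mono (by simp only [cB]; omega)

/-- The conditions on the numbers. -/
structure Cnd (M : RTM) (c : Cf) (T W : ℕ) (x : List Bool) : Prop where
  W1 : 1 ≤ W
  hT : 2 * T ≤ 2 ^ ((parx M c x).rk * (parx M c x).K)
  hW : 8 * 2 ^ ((parx M c x).rk * (parx M c x).K) * W ^ 2 ≤ 2 ^ hh M c x

/-- Large transition probabilities and large entries. -/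
theorem edge_ok (hM : M.Bounded (fun n => (n + 2) ^ c.c) (fun n => c.c * Nat.log 2 (n + 2)))
    (x : List Bool) (sd : ℕ) {T W : ℕ} (cn : Cnd M c T W x) {v u : ℕ}
    (hv : v + 1 < (parx M c x).n) (hu : u + 1 < (parx M c x).n) :
    (∀ t, t + 1 ≤ T → (1 / (W : ℝ)) ^ 2 ≤ CT.hitR (csx M c x) u (t + 1) v →
      thrS M c x < (data (parx M c x).toPar (theSem (parx M c x)) (csx M c x)
        (oSd (parx M c x) sd) (parx M c x).S).A v u) ∧
    (thrS M c x < (data (parx M c x).toPar (theSem (parx M c x)) (csx M c x)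
        (oSd (parx M c x) sd) (parx M c x).S).A v u →
      ∃ t, 1 / (2 : ℝ) ^ (hh M c x + 1) ≤ CT.hitR (csx M c x) u (t + 1) v) := by
  have hoffs : H974.Offs (parx M c x).toPar (oSd (parx M c x) sd) :=
    fun s i => (oSd_lt (D_pos' x) sd s i).le
  obtain ⟨h1, h2⟩ := entry_lower (numOK x) (semOKx x) (o := oSd (parx M c x) sd) hoffs
    (cs := csx M c x) (csxOK hM x) (Sn := (parx M c x).S) (E := 2 ^ (hh M c x + 5)) (by positivity)
    (runE x le_rfl) hv hu
  set A : ℕ := (data (parx M c x).toPar (theSem (parx M c x)) (csx M c x)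
      (oSd (parx M c x) sd) (parx M c x).S).A v u with hA
  have hq0 : 0 < (parx M c x).q ^ (parx M c x).b := Nat.pow_pos (q_prime x).pos
  have hqb : (0 : ℝ) < ((parx M c x).q : ℝ) ^ (parx M c x).b := by exact_mod_cast hq0
  set H : ℝ := 2 ^ hh M c x with hH
  have hH0 : 0 < H := by positivity
  have hE : (1 : ℝ) / ((2 ^ (hh M c x + 5) : ℕ) : ℝ) = 1 / H / 32 := by
    push_cast
    rw [pow_add, ← hH]
    field_simp
    norm_num
  rw [hE] at h1 h2
  have hthr : thrS M c x < A ↔ 1 / H < (A : ℝ) / ((parx M c x).q : ℝ) ^ (parx M c x).b := by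
    unfold thrS
    rw [Nat.div_lt_iff_lt_mul (by positivity), div_lt_div_iff₀ hH0 hqb, one_mul]
    rw [hH]
    exact_mod_cast Iff.rfl
  rw [hthr]
  have hHi : 0 < 1 / H := by positivity
  refine ⟨fun t ht hh1 => ?_, fun h3 => ?_⟩
  · have h4 := h1 t
    rw [Z.hitR_eq] at h4
    set P : ℝ := 2 ^ ((parx M c x).rk * (parx M c x).K) with hP
    have hP0 : 0 < P := by positivity
    have ea : (1 / 2 : ℝ) ^ ((parx M c x).rk * (parx M c x).K) = 1 / P := by
      rw [hP, one_div_pow]
    rw [ea] at h4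
    have hTr : 2 * (T : ℝ) ≤ P := by
      rw [hP]
      exact_mod_cast cn.hT
    have hWr : 8 * P * (W : ℝ) ^ 2 ≤ H := by
      rw [hP, hH]
      exact_mod_cast cn.hW
    have hW0 : (0 : ℝ) < W := by exact_mod_cast cn.W1
    have ht' : ((t : ℝ)) ≤ T := by
      have : t ≤ T := by omega
      exact_mod_cast this
    have hP1 : 1 ≤ P := one_le_pow₀ (by norm_num)
    have h5 : (1 : ℝ) / 2 ≤ (1 - 1 / P) ^ t := by
      have h6 := one_add_mul_le_pow (a := -(1 / P)) (by
        have : 1 / P ≤ 1 := by rw [div_le_one hP0]; exact hP1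
        linarith) t
      have e : (1 : ℝ) + -(1 / P) = 1 - 1 / P := by ring
      rw [e] at h6
      have h7 : (t : ℝ) * (1 / P) ≤ 1 / 2 := by
        rw [mul_one_div, div_le_div_iff₀ hP0 (by norm_num)]
        linarith
      linarith
    have h8 : 1 / P * (1 / 2) * (1 / (W : ℝ)) ^ 2 ≤
        1 / P * (1 - 1 / P) ^ t * CT.hitR (csx M c x) u (t + 1) v := by
      have hPi : 0 ≤ 1 / P := one_div_nonneg.2 hP0.le
      have h5' : 0 ≤ (1 - 1 / P) ^ t := le_trans (by norm_num) h5
      apply mul_le_mul _ hh1 (sq_nonneg _) (mul_nonneg hPi h5')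
      exact mul_le_mul_of_nonneg_left h5 hPi
    have h9 : 4 * (1 / H) ≤ 1 / P * (1 / 2) * (1 / (W : ℝ)) ^ 2 := by
      have e : 1 / P * (1 / 2) * (1 / (W : ℝ)) ^ 2 = 1 / (2 * P * W ^ 2) := by
        have hW0' := hW0.ne'
        have hP0' := hP0.ne'
        field_simp
      have h10 : 0 < 2 * P * (W : ℝ) ^ 2 := mul_pos (mul_pos two_pos hP0) (pow_pos hW0 2)
      rw [e, mul_one_div, div_le_div_iff₀ hH0 h10]
      linarith
    linarith
  · obtain ⟨t, ht⟩ := h2 (1 / H / 2) (by linarith)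
    refine ⟨t, ?_⟩
    rw [Z.hitR_eq] at ht
    refine le_trans (le_of_eq ?_) ht
    rw [pow_succ, ← hH]
    field_simp

end Vale.Agent.P313.H947
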